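import Crest.Agent.N207.M.Nd1
import Crest.Agent.N207.I.Defs
import Crest.Agent.N207.Ga.Defs
import Crest.Agent.N207.I.Cal4
import Crest.Agent.N207.I.Car3

-- ▼ part N207/M/Nd2
section

/-!
# Row 207, gauge block (helper50): neck decay of equivariant vector fields (`nd`)
-/

set_option autoImplicit false
open Set Filter Topology Metric
open scoped ContDiff RealInnerProductSpace
open Crest.GeometryTopology.CoordMetric

noncomputable section

namespace Crest.Agent.N207.M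

open Hd I

variable {F : Type*} [NormedAddCommGroup F] [NormedSpace ℝ F] {f : E4 → F} {x y : E4}
  {a b g P Q ρ K : ℝ}

theorem seg_le (hρ : 0 < ρ) (hd : ∀ z ∈ An (ρ / 2) ρ, DifferentiableAt ℝ f z)
    (hK : ∀ z ∈ An (ρ / 2) ρ, ‖fderiv ℝ f z‖ ≤ K) (hx : ‖x‖ = ρ) (hy : ‖y‖ = ρ)
    (hxy : 0 ≤ ⟪x, y⟫) : ‖f x - f y‖ ≤ 2 * ρ * K := by
  have hs : segment ℝ x y ⊆ An (ρ / 2) ρ := by
    rintro z ⟨s, t, hs, ht, hst, rfl⟩
    refine ⟨?_, ?_⟩
    · have e : ‖s • x + t • y‖ ^ 2 = s ^ 2 * ρ ^ 2 + 2 * (s * t * ⟪x, y⟫) + t ^ 2 * ρ ^ 2 := by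
        rw [norm_add_sq_real, norm_smul, norm_smul, hx, hy, real_inner_smul_left,
          real_inner_smul_right, Real.norm_of_nonneg hs, Real.norm_of_nonneg ht]
        ring
      refine (pow_le_pow_iff_left₀ (by positivity) (norm_nonneg _) two_ne_zero).1 ?_
      · have h1 : 0 ≤ s * t * ⟪x, y⟫ := by positivity
        have h2 : 1 / 4 ≤ s ^ 2 + t ^ 2 := by nlinarith [sq_nonneg (s - t)]
        nlinarith [mul_le_mul_of_nonneg_right h2 (sq_nonneg ρ)]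
    · refine (norm_add_le _ _).trans ?_
      rw [norm_smul, norm_smul, hx, hy, Real.norm_of_nonneg hs, Real.norm_of_nonneg ht, ← add_mul,
        hst, one_mul]
  have h := (convex_segment x y).norm_image_sub_le_of_norm_fderiv_le (fun z hz => hd z (hs hz))
    (fun z hz => hK z (hs hz)) (right_mem_segment ℝ x y) (left_mem_segment ℝ x y)
  have hK0 : 0 ≤ K := (norm_nonneg _).trans (hK x (hs (left_mem_segment ℝ x y)))
  have h2 : ‖x - y‖ ≤ 2 * ρ := by linarith [norm_sub_le x y]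
  nlinarith [mul_le_mul_of_nonneg_left h2 hK0]

theorem exists_mid (hρ : 0 < ρ) (hx : ‖x‖ = ρ) (hy : ‖y‖ = ρ) :
    ∃ z : E4, ‖z‖ = ρ ∧ 0 ≤ ⟪x, z⟫ ∧ 0 ≤ ⟪z, y⟫ := by
  by_cases h : x + y = 0
  · refine ⟨!₂[-x 1, x 0, -x 3, x 2], ?_, ?_, ?_⟩
    · rw [← hx, ← sq_eq_sq₀ (norm_nonneg _) (norm_nonneg _), norm_sq_eq, norm_sq_eq]
      simp [Fin.sum_univ_four]; ring
    · simp [PiLp.inner_apply, Fin.sum_univ_four]; linarith
    · rw [eq_neg_of_add_eq_zero_right h]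
      simp [PiLp.inner_apply, Fin.sum_univ_four]; linarith
  · have hp : 0 < ‖x + y‖ := norm_pos_iff.2 h
    have h1 : -(ρ * ρ) ≤ ⟪x, y⟫ := by
      have := abs_real_inner_le_norm x y
      rw [hx, hy] at this
      exact (abs_le.1 this).1
    refine ⟨(ρ / ‖x + y‖) • (x + y), ?_, ?_, ?_⟩
    · rw [norm_smul, Real.norm_of_nonneg (by positivity), div_mul_cancel₀ _ hp.ne']
    · rw [real_inner_smul_right, inner_add_right, real_inner_self_eq_norm_mul_norm, hx]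
      exact mul_nonneg (by positivity) (by linarith)
    · rw [real_inner_smul_left, inner_add_left, real_inner_self_eq_norm_mul_norm, hy]
      exact mul_nonneg (by positivity) (by linarith)

/-- oscillation on a sphere -/
theorem sph_le (hρ : 0 < ρ) (hd : ∀ z ∈ An (ρ / 2) ρ, DifferentiableAt ℝ f z)
    (hK : ∀ z ∈ An (ρ / 2) ρ, ‖fderiv ℝ f z‖ ≤ K) (hx : ‖x‖ = ρ) (hy : ‖y‖ = ρ) :
    ‖f x - f y‖ ≤ 4 * ρ * K := by
  obtain ⟨z, hz, h1, h2⟩ := exists_mid hρ hx hy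
  linarith [seg_le hρ hd hK hx hz h1, seg_le hρ hd hK hz hy h2, norm_sub_le_norm_sub_add_norm_sub
    (f x) (f z) (f y)]

theorem prof_half (ha : 0 < a) (hb : 0 < b) (hg0 : 0 ≤ g) (hg : g ≤ 1) (hP : 0 ≤ P) (hQ : 0 ≤ Q)
    {r s : ℝ} (hr : 0 < r) (h1 : r / 2 ≤ s) (h2 : s ≤ r) :
    prof a b g P Q s ≤ 2 * prof a b g P Q r := by
  have hs : 0 < s := by linarith
  have e1 : (s / b) ^ g ≤ (r / b) ^ g := Real.rpow_le_rpow (by positivity) (by gcongr) hg0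
  have e2 : (a / s) ^ g ≤ (2 * (a / r)) ^ g := by
    refine Real.rpow_le_rpow (by positivity) ?_ hg0
    rw [← mul_div_assoc, div_le_div_iff₀ hs hr]; nlinarith
  rw [Real.mul_rpow (by norm_num) (by positivity)] at e2
  have e3 : (2 : ℝ) ^ g ≤ 2 := by
    simpa using Real.rpow_le_rpow_of_exponent_le (by norm_num : (1 : ℝ) ≤ 2) hg
  have e4 : 0 ≤ (a / r) ^ g := by positivity
  have e5 : 0 ≤ (r / b) ^ g := by positivity
  have e6 := mul_le_mul_of_nonneg_right e3 e4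
  unfold prof
  nlinarith [mul_le_mul_of_nonneg_left e1 hP, mul_le_mul_of_nonneg_left (e2.trans e6) hQ,
    mul_nonneg hP e5]

/-- the radial step -/
theorem rad_le (ha : 0 < a) (hg0 : 0 < g) (hP : 0 ≤ P) (hQ : 0 ≤ Q)
    (hd : ∀ z ∈ An a b, DifferentiableAt ℝ f z)
    (hK : ∀ z ∈ An a b, ‖z‖ * ‖fderiv ℝ f z‖ ≤ prof a b g P Q ‖z‖) (hx : x ∈ An a b) {T : ℝ}
    (hT : 0 ≤ T) (hy : Real.exp T * ‖x‖ ≤ b) :
    ‖f (Real.exp T • x) - f x‖ ≤
      g⁻¹ * (prof a b g P Q ‖x‖ + prof a b g P Q (Real.exp T * ‖x‖)) := by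
  have hp := pos_of_An ha hx
  have hb : 0 < b := hp.trans_le hx.2
  have hn : ∀ t : ℝ, ‖Real.exp t • x‖ = Real.exp t * ‖x‖ := fun t => by
    rw [norm_smul, Real.norm_of_nonneg (Real.exp_pos t).le]
  have hm : ∀ t ∈ Icc 0 T, Real.exp t • x ∈ An a b := fun t ht => by
    refine ⟨?_, ?_⟩ <;> rw [hn]
    · nlinarith [Real.one_le_exp ht.1, hx.1]
    · nlinarith [Real.exp_le_exp.2 ht.2]
  have hder : ∀ t ∈ Icc 0 T, HasDerivAt (fun s => f (Real.exp s • x) - f x)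
      (fderiv ℝ f (Real.exp t • x) (Real.exp t • x)) t := fun t ht =>
    ((hd _ (hm t ht)).hasFDerivAt.comp_hasDerivAt t
      ((Real.hasDerivAt_exp t).smul_const x)).sub_const _
  set p := P * (‖x‖ / b) ^ g with hp'
  set q := Q * (a / ‖x‖) ^ g with hq'
  have e1 : ∀ t : ℝ, prof a b g P Q (Real.exp t * ‖x‖) =
      p * Real.exp (g * t) + q * Real.exp (-(g * t)) := fun t => by
    have h1 : Real.exp t ^ g = Real.exp (g * t) := by rw [mul_comm, Real.exp_mul]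
    unfold prof
    rw [mul_div_assoc, Real.mul_rpow (Real.exp_pos t).le (by positivity), h1,
      show a / (Real.exp t * ‖x‖) = a / ‖x‖ / Real.exp t by field_simp,
      Real.div_rpow (by positivity) (Real.exp_pos t).le, h1, Real.exp_neg, hp', hq']
    ring
  have hB : ∀ t : ℝ, HasDerivAt
      (fun s => g⁻¹ * (p * (Real.exp (g * s) - 1) + q * (1 - Real.exp (-(g * s)))))
      (p * Real.exp (g * t) + q * Real.exp (-(g * t))) t := fun t => by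
    have h1 : HasDerivAt (fun s => g * s) g t := by simpa using (hasDerivAt_id t).const_mul g
    have h2 := ((((h1.exp.sub_const 1).const_mul p).add
      ((h1.neg.exp.const_sub 1).const_mul q)).const_mul g⁻¹)
    refine h2.congr_deriv ?_
    simp only [Pi.neg_apply]
    field_simp
  have key := image_norm_le_of_norm_deriv_right_le_deriv_boundary
    (fun t ht => (hder t ht).continuousAt.continuousWithinAt)
    (fun t ht => (hder t (Ico_subset_Icc_self ht)).hasDerivWithinAt) (by simp) hB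
    (fun t ht => by
      have h1 := hK _ (hm t (Ico_subset_Icc_self ht))
      rw [← e1, ← hn]
      refine ((fderiv ℝ f _).le_opNorm _).trans ?_
      linarith) (right_mem_Icc.2 hT)
  refine key.trans (mul_le_mul_of_nonneg_left ?_ (by positivity))
  have e0 := e1 0
  simp only [Real.exp_zero, one_mul, mul_zero, neg_zero, mul_one] at e0
  have p0 : 0 ≤ p := by positivity
  have q0 : 0 ≤ q := by positivity
  rw [e0, e1]
  nlinarith [mul_nonneg q0 (Real.exp_pos (-(g * T))).le]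

/-- two points of an annulus -/
theorem chain_le (ha : 0 < a) (hg0 : 0 < g) (hg : g ≤ 1) (hP : 0 ≤ P) (hQ : 0 ≤ Q)
    (hd : ∀ z ∈ An a b, DifferentiableAt ℝ f z)
    (hK : ∀ z ∈ An a b, ‖z‖ * ‖fderiv ℝ f z‖ ≤ prof a b g P Q ‖z‖) (hx : x ∈ An (2 * a) b)
    (hy : y ∈ An (2 * a) b) :
    ‖f x - f y‖ ≤ (16 + g⁻¹) * (prof a b g P Q ‖x‖ + prof a b g P Q ‖y‖) := by
  wlog h : ‖x‖ ≤ ‖y‖ generalizing x y
  · rw [norm_sub_rev, add_comm (prof a b g P Q ‖x‖)]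
    exact this hy hx (not_le.1 h).le
  have hx0 : 0 < ‖x‖ := pos_of_An (by linarith) hx
  have hy0 : 0 < ‖y‖ := pos_of_An (by linarith) hy
  have hb : 0 < b := hy0.trans_le hy.2
  have hT : Real.exp (Real.log (‖y‖ / ‖x‖)) * ‖x‖ = ‖y‖ := by
    rw [Real.exp_log (by positivity), div_mul_cancel₀ _ hx0.ne']
  have h1 := rad_le ha hg0 hP hQ hd hK (An_mono (by linarith) le_rfl hx)
    (Real.log_nonneg ((one_le_div hx0).2 h)) (hT.le.trans hy.2)
  rw [hT] at h1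
  have hs : An (‖y‖ / 2) ‖y‖ ⊆ An a b := An_mono (by linarith [hy.1]) hy.2
  have h2 := sph_le (K := 4 * prof a b g P Q ‖y‖ / ‖y‖) (x := Real.exp (Real.log (‖y‖ / ‖x‖)) • x)
    hy0 (fun z hz => hd z (hs hz)) (fun z hz => by
      have a1 := hK z (hs hz)
      have a2 := prof_half ha hb hg0.le hg hP hQ hy0 hz.1 hz.2
      rw [le_div_iff₀ hy0]
      nlinarith [hz.1, norm_nonneg (fderiv ℝ f z)])
    (by rw [norm_smul, Real.norm_of_nonneg (Real.exp_pos _).le, hT]) rfl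
  rw [show 4 * ‖y‖ * (4 * prof a b g P Q ‖y‖ / ‖y‖) = 16 * prof a b g P Q ‖y‖ by field_simp; ring]
    at h2
  have h3 := prof_nonneg (g := g) ha.le hb.le hP hQ hx0.le
  rw [norm_sub_rev] at h1
  linarith [norm_sub_le_norm_sub_add_norm_sub (f x) (f (Real.exp (Real.log (‖y‖ / ‖x‖)) • x)) (f y)]

theorem opNorm_le_sum (T : E4 →L[ℝ] F) : ‖T‖ ≤ ∑ i, ‖T (EuclideanSpace.single i 1)‖ := by
  refine T.opNorm_le_bound (Finset.sum_nonneg fun _ _ => norm_nonneg _) fun v => ?_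
  have h : v = ∑ j, v j • EuclideanSpace.single j (1 : ℝ) := by
    ext l; simp [Pi.single_apply]
  conv_lhs => rw [h, map_sum]
  rw [Finset.sum_mul]
  refine (norm_sum_le _ _).trans (Finset.sum_le_sum fun i _ => ?_)
  rw [map_smul, norm_smul, mul_comm]
  exact mul_le_mul_of_nonneg_left (PiLp.norm_apply_le v i) (norm_nonneg _)

theorem norm_le_sum (v : E4) : ‖v‖ ≤ ∑ k, |v k| := by
  have h : v = ∑ j, v j • EuclideanSpace.single j (1 : ℝ) := by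
    ext l; simp [Pi.single_apply]
  conv_lhs => rw [h]
  refine (norm_sum_le _ _).trans (Finset.sum_le_sum fun i _ => ?_)
  simp [norm_smul]

theorem pd_cmp {V : E4 → E4} (hV : DifferentiableAt ℝ V x) (j k : Fin 4) :
    pderiv j (fun y => V y k) x = fderiv ℝ V x (EuclideanSpace.single j 1) k := by
  have h := ((EuclideanSpace.proj k : E4 →L[ℝ] ℝ).hasFDerivAt.comp x hV.hasFDerivAt).fderiv
  exact congrArg (fun T : E4 →L[ℝ] ℝ => T (EuclideanSpace.single j 1)) h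

theorem norm_D2_le {V : E4 → E4} (hV : ContDiffAt ℝ 2 V x) {m : ℝ}
    (h : ∀ i j k, |pderiv i (pderiv j fun y => V y k) x| ≤ m) :
    ‖fderiv ℝ (fderiv ℝ V) x‖ ≤ 64 * m := by
  have hd : DifferentiableAt ℝ (fderiv ℝ V) x :=
    (hV.fderiv_right (m := 1) (by norm_num)).differentiableAt (by norm_num)
  have e : ∀ i j k, pderiv i (pderiv j fun y => V y k) x =
      fderiv ℝ (fderiv ℝ V) x (EuclideanSpace.single i 1) (EuclideanSpace.single j 1) k := by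
    intro i j k
    have e1 : (pderiv j fun y => V y k) =ᶠ[𝓝 x] fun y => fderiv ℝ V y (EuclideanSpace.single j 1) k :=
      ((hV.eventually (by simp)).mono fun y hy => pd_cmp (hy.differentiableAt (by norm_num)) j k)
    rw [pd_congr i e1, pd_cmp (hd.clm_apply (differentiableAt_const _)),
      fderiv_clm_apply hd (differentiableAt_const _)]
    simp
  refine (opNorm_le_sum _).trans ?_
  calc _ ≤ ∑ _i : Fin 4, ∑ _j : Fin 4, ∑ _k : Fin 4, m :=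
        Finset.sum_le_sum fun i _ => (opNorm_le_sum _).trans (Finset.sum_le_sum fun j _ =>
          (norm_le_sum _).trans (Finset.sum_le_sum fun k _ => e i j k ▸ h i j k))
    _ = 64 * m := by simp; ring

end Crest.Agent.N207.M

end
end

-- ▼ part N207/M/Nd3
section

/-!
# Row 207, gauge block (helper50): the linear part of an equivariant field on a neck
-/

set_option autoImplicit false
open Set Filter Topology Metric
open scoped ContDiff RealInnerProductSpace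
open Crest.GeometryTopology.CoordMetric

noncomputable section

namespace Crest.Agent.N207.M

open Hd I

variable {x y : E4} {a b g P Q : ℝ} {Γ : Subgroup Iso4} {V : E4 → E4} {U : Set E4}

theorem sum_inv_eq_zero [Fintype Γ] (hne : Γ ≠ ⊥)
    (hfree : ∀ γ ∈ Γ, ∀ x : E4, x ≠ 0 → γ x = x → γ = 1) (v : E4) :
    ∑ γ : Γ, (γ : Iso4).symm v = 0 := by
  by_contra h
  obtain ⟨⟨γ0, h0⟩, h1⟩ := (Subgroup.ne_bot_iff_exists_ne_one).1 hne
  refine h1 (Subtype.ext (hfree γ0 h0 _ h ?_))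
  rw [map_sum, ← Equiv.sum_comp (Equiv.mulRight (⟨γ0, h0⟩ : Γ))]
  refine Finset.sum_congr rfl fun γ _ => ?_
  simp only [Equiv.coe_mulRight, Subgroup.coe_mul]
  exact γ0.apply_symm_apply _

/-- an equivariant field is bounded by its oscillation on spheres -/
theorem norm_le_osc [Finite Γ] (hne : Γ ≠ ⊥)
    (hfree : ∀ γ ∈ Γ, ∀ x : E4, x ≠ 0 → γ x = x → γ = 1) (he : ∀ γ ∈ Γ, V (γ x) = γ (V x)) {m : ℝ}
    (ho : ∀ y : E4, ‖y‖ = ‖x‖ → ‖V y - V x‖ ≤ m) : ‖V x‖ ≤ m := by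
  have := Fintype.ofFinite Γ
  have h1 : ∑ γ : Γ, (γ : Iso4).symm (V ((γ : Iso4) x) - V x) = (Fintype.card Γ : ℝ) • V x := by
    simp only [map_sub, Finset.sum_sub_distrib, sum_inv_eq_zero hne hfree, sub_zero,
      fun γ : Γ => he γ γ.2, LinearIsometryEquiv.symm_apply_apply, Finset.sum_const,
      Finset.card_univ, Nat.cast_smul_eq_nsmul]
  have h2 : ‖(Fintype.card Γ : ℝ) • V x‖ ≤ ∑ _γ : Γ, m := by
    rw [← h1]
    refine (norm_sum_le _ _).trans (Finset.sum_le_sum fun γ _ => ?_)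
    rw [LinearIsometryEquiv.norm_map]
    exact ho _ (LinearIsometryEquiv.norm_map _ _)
  have h3 : (0 : ℝ) < Fintype.card Γ := by exact_mod_cast Fintype.card_pos
  rw [norm_smul, Finset.sum_const, Finset.card_univ, nsmul_eq_mul, Real.norm_of_nonneg h3.le] at h2
  exact le_of_mul_le_mul_left h2 h3

theorem fderiv_eqv (γ : Iso4) (he : ∀ᶠ z in 𝓝 x, V (γ z) = γ (V z))
    (h1 : DifferentiableAt ℝ V x) (h2 : DifferentiableAt ℝ V (γ x)) (v : E4) :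
    fderiv ℝ V (γ x) (γ v) = γ (fderiv ℝ V x v) := by
  have hγ : ∀ z, HasFDerivAt γ (γ.toContinuousLinearEquiv : E4 →L[ℝ] E4) z := fun z =>
    γ.toContinuousLinearEquiv.hasFDerivAt
  have e1 := (h2.hasFDerivAt.comp x (hγ x)).fderiv
  have e2 := ((hγ (V x)).comp x h1.hasFDerivAt).fderiv
  have e3 : fderiv ℝ (V ∘ γ) x = fderiv ℝ (γ ∘ V) x := Filter.EventuallyEq.fderiv_eq he
  rw [e1, e2] at e3
  exact congrArg (fun T : E4 →L[ℝ] E4 => T v) e3

theorem An_iso (γ : Iso4) (hx : x ∈ An a b) : γ x ∈ An a b := by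
  unfold An at hx ⊢
  simpa using hx

/-- from the decay of the second derivatives to the linear part -/
theorem lin_part [Finite Γ] (hne : Γ ≠ ⊥) (hfree : ∀ γ ∈ Γ, ∀ x : E4, x ≠ 0 → γ x = x → γ = 1)
    (ha : 0 < a) (hab : 2 * a ≤ b) (hg0 : 0 < g) (hg : g ≤ 1) (hP : 0 ≤ P) (hQ : 0 ≤ Q)
    (hU : IsOpen U) (hsub : An a b ⊆ U) (hV : ContDiffOn ℝ 2 V U)
    (he : ∀ γ ∈ Γ, ∀ x ∈ U, V (γ x) = γ (V x))
    (h2 : ∀ x ∈ An a b, ∀ i j k,
      ‖x‖ * |pderiv i (pderiv j fun y => V y k) x| ≤ prof a b g P Q ‖x‖) :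
    ∃ A : E4 →L[ℝ] E4, (∀ γ ∈ Γ, ∀ v, A (γ v) = γ (A v)) ∧
      (∀ x ∈ An (2 * a) b, ‖fderiv ℝ V x - A‖ ≤ 128 * (16 + g⁻¹) * prof a b g P Q ‖x‖) ∧
      ∀ x ∈ An (4 * a) b, ‖V x - A x‖ ≤ 2048 * (16 + g⁻¹) * (‖x‖ * prof a b g P Q ‖x‖) := by
  have := Fintype.ofFinite Γ
  have hb : 0 < b := by linarith
  have c2 : ∀ x ∈ An a b, ContDiffAt ℝ 2 V x := fun x hx => hV.contDiffAt (hU.mem_nhds (hsub hx))
  have d1 : ∀ x ∈ An a b, DifferentiableAt ℝ V x := fun x hx =>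
    (c2 x hx).differentiableAt (by norm_num)
  have s2 : An (2 * a) b ⊆ An a b := An_mono (by linarith) le_rfl
  have e64 : ∀ r, prof a b g (64 * P) (64 * Q) r = 64 * prof a b g P Q r := fun r => by
    unfold prof; ring
  have hK : ∀ z ∈ An a b, ‖z‖ * ‖fderiv ℝ (fderiv ℝ V) z‖ ≤ prof a b g (64 * P) (64 * Q) ‖z‖ :=
    fun z hz => by
      have hp := pos_of_An ha hz
      have := norm_D2_le (c2 z hz) (m := prof a b g P Q ‖z‖ / ‖z‖) fun i j k => by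
        rw [le_div_iff₀ hp, mul_comm]; exact h2 z hz i j k
      rw [← mul_div_assoc, le_div_iff₀ hp] at this
      rw [e64]; linarith
  obtain ⟨y0, hy0, hmin⟩ := (isCompact_An (2 * a) b).exists_isMinOn
    (f := fun z : E4 => prof a b g P Q ‖z‖)
    ⟨EuclideanSpace.single 0 b, by constructor <;> simp [abs_of_pos hb, hab]⟩ (by
      unfold prof
      refine (continuousOn_const.mul (ContinuousOn.rpow_const (by fun_prop) fun _ _ =>
        Or.inr hg0.le)).add (continuousOn_const.mul (ContinuousOn.rpow_const ?_ fun _ _ =>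
        Or.inr hg0.le))
      exact continuousOn_const.div continuous_norm.continuousOn fun z hz =>
        (pos_of_An (by linarith) hz).ne')
  have hc : (0 : ℝ) < Fintype.card Γ := by exact_mod_cast Fintype.card_pos
  set A : E4 →L[ℝ] E4 := (Fintype.card Γ : ℝ)⁻¹ • ∑ γ : Γ, fderiv ℝ V ((γ : Iso4) y0) with hA
  have hA1 : ∀ γ ∈ Γ, ∀ v, A (γ v) = γ (A v) := fun δ hδ v => by
    simp only [hA, _root_.smul_apply, _root_.sum_apply, map_smul, map_sum]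
    congr 1
    rw [← Equiv.sum_comp (Equiv.mulLeft (⟨δ, hδ⟩ : Γ))]
    refine Finset.sum_congr rfl fun γ _ => ?_
    have hm := s2 (An_iso γ hy0)
    exact fderiv_eqv δ (eventually_of_mem (hU.mem_nhds (hsub hm)) (he δ hδ)) (d1 _ hm)
      (d1 _ (An_iso δ hm)) v
  have hA2 : ∀ x ∈ An (2 * a) b,
      ‖fderiv ℝ V x - A‖ ≤ 128 * (16 + g⁻¹) * prof a b g P Q ‖x‖ := fun x hx => by
    have e1 : fderiv ℝ V x - A =
        (Fintype.card Γ : ℝ)⁻¹ • ∑ γ : Γ, (fderiv ℝ V x - fderiv ℝ V ((γ : Iso4) y0)) := by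
      rw [Finset.sum_sub_distrib, smul_sub, Finset.sum_const, Finset.card_univ,
        ← Nat.cast_smul_eq_nsmul ℝ, smul_smul, inv_mul_cancel₀ hc.ne', one_smul]
    have e2 : ‖∑ γ : Γ, (fderiv ℝ V x - fderiv ℝ V ((γ : Iso4) y0))‖ ≤
        ∑ _γ : Γ, 128 * (16 + g⁻¹) * prof a b g P Q ‖x‖ := by
      refine (norm_sum_le _ _).trans (Finset.sum_le_sum fun γ _ => ?_)
      have k1 := chain_le (f := fderiv ℝ V) ha hg0 hg (by positivity) (by positivity)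
        (fun z hz => ((c2 z hz).fderiv_right (m := 1) (by norm_num)).differentiableAt
          (by norm_num)) hK hx (An_iso γ hy0)
      have k2 : prof a b g P Q ‖y0‖ ≤ prof a b g P Q ‖x‖ := hmin hx
      rw [e64, e64, LinearIsometryEquiv.norm_map] at k1
      have k3 : 0 ≤ 16 + g⁻¹ := by positivity
      nlinarith [mul_le_mul_of_nonneg_left k2 k3]
    rw [Finset.sum_const, Finset.card_univ, nsmul_eq_mul] at e2
    rw [e1, norm_smul, norm_inv, Real.norm_of_nonneg hc.le, inv_mul_le_iff₀ hc]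
    exact e2
  refine ⟨A, hA1, hA2, fun x hx => ?_⟩
  have hp : 0 < ‖x‖ := pos_of_An (by linarith) hx
  have s4 : An (‖x‖ / 2) ‖x‖ ⊆ An (2 * a) b := An_mono (by linarith [hx.1]) hx.2
  have hxa : x ∈ An a b := An_mono (by linarith) le_rfl hx
  refine norm_le_osc (V := fun z => V z - A z) hne hfree
    (fun γ hγ => by simp only [he γ hγ x (hsub hxa), hA1 γ hγ, map_sub]) fun y hy => ?_
  have k := sph_le (f := fun z => V z - A z) (K := 128 * (16 + g⁻¹) * (2 * prof a b g P Q ‖x‖)) hp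
    (fun z hz => (d1 z (s2 (s4 hz))).sub A.differentiableAt) (fun z hz => by
      rw [fderiv_fun_sub (d1 z (s2 (s4 hz))) A.differentiableAt, A.fderiv]
      exact (hA2 z (s4 hz)).trans (mul_le_mul_of_nonneg_left
        (prof_half ha hb hg0.le hg hP hQ hp hz.1 hz.2) (by positivity))) hy rfl
  have k3 : 0 ≤ (16 + g⁻¹) * (‖x‖ * prof a b g P Q ‖x‖) :=
    mul_nonneg (by positivity) (mul_nonneg hp.le (prof_nonneg ha.le hb.le hP hQ hp.le))
  nlinarith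

theorem lap0_pd {w : E4 → ℝ} (hU : IsOpen U) (hw : ContDiffOn ℝ ∞ w U) (j : Fin 4) (hx : x ∈ U) :
    lap0 (pderiv j w) x = pderiv j (lap0 w) x := by
  unfold lap0
  rw [pd_sum j _ fun i _ => dAt (sm_pd hU (sm_pd hU hw i) i) hU hx]
  refine Finset.sum_congr rfl fun i _ => ?_
  rw [pd_comm j i (c2At (sm_pd hU hw i) hU hx)]
  exact pd_congr_on i hU hx fun z hz => pd_comm i j (c2At hw hU hz)


/-- decay of the second derivatives -/
theorem d2_decay {w : E4 → ℝ} (ha : 0 < a) (hP : 0 ≤ P) (hQ : 0 ≤ Q) (hU : IsOpen U)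
    (hsub : An a b ⊆ U) (hw : ContDiffOn ℝ ∞ w U) (i j : Fin 4)
    (hl : ∀ x ∈ An a b,
      ‖x‖ ^ 3 * |pderiv i (pderiv j (lap0 w)) x| ≤ (1 - g ^ 2) * prof a b g P Q ‖x‖)
    (h1 : ∀ x ∈ An a b, ‖x‖ = a → a * |pderiv i (pderiv j w) x| ≤ Q)
    (h2 : ∀ x ∈ An a b, ‖x‖ = b → b * |pderiv i (pderiv j w) x| ≤ P) (hx : x ∈ An a b) :
    ‖x‖ * |pderiv i (pderiv j w) x| ≤ prof a b g P Q ‖x‖ := by
  refine mp_prof ha hP hQ (fun y hy => c2At (sm_pd hU (sm_pd hU hw j) i) hU (hsub hy))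
    (fun y h h' => ?_) h1 h2 hx
  have hy : y ∈ An a b := ⟨h.le, h'.le⟩
  rw [lap0_pd hU (sm_pd hU hw j) i (hsub hy),
    pd_congr_on i hU (hsub hy) fun z hz => lap0_pd hU hw j hz]
  exact hl y hy

/-- **ND**: neck decay -/
theorem nd [Finite Γ] (hne : Γ ≠ ⊥) (hfree : ∀ γ ∈ Γ, ∀ x : E4, x ≠ 0 → γ x = x → γ = 1)
    (ha : 0 < a) (hab : 2 * a ≤ b) (hg0 : 0 < g) (hg : g ≤ 1) (hP : 0 ≤ P) (hQ : 0 ≤ Q)
    (hU : IsOpen U) (hsub : An a b ⊆ U) (hV : ContDiffOn ℝ ∞ V U)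
    (he : ∀ γ ∈ Γ, ∀ x ∈ U, V (γ x) = γ (V x))
    (hl : ∀ x ∈ An a b, ∀ i j k, ‖x‖ ^ 3 * |pderiv i (pderiv j (lap0 fun y => V y k)) x| ≤
      (1 - g ^ 2) * prof a b g P Q ‖x‖)
    (h1 : ∀ x ∈ An a b, ‖x‖ = a → ∀ i j k, a * |pderiv i (pderiv j fun y => V y k) x| ≤ Q)
    (h2 : ∀ x ∈ An a b, ‖x‖ = b → ∀ i j k, b * |pderiv i (pderiv j fun y => V y k) x| ≤ P) :
    ∃ A : E4 →L[ℝ] E4, (∀ γ ∈ Γ, ∀ v, A (γ v) = γ (A v)) ∧
      (∀ x ∈ An a b, ∀ i j k,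
        ‖x‖ * |pderiv i (pderiv j fun y => V y k) x| ≤ prof a b g P Q ‖x‖) ∧
      (∀ x ∈ An (2 * a) b, ‖fderiv ℝ V x - A‖ ≤ 128 * (16 + g⁻¹) * prof a b g P Q ‖x‖) ∧
      ∀ x ∈ An (4 * a) b, ‖V x - A x‖ ≤ 2048 * (16 + g⁻¹) * (‖x‖ * prof a b g P Q ‖x‖) := by
  have k : ∀ x ∈ An a b, ∀ i j k,
      ‖x‖ * |pderiv i (pderiv j fun y => V y k) x| ≤ prof a b g P Q ‖x‖ := fun x hx i j k =>
    d2_decay ha hP hQ hU hsub ((contDiff_coord k).comp_contDiffOn hV) i j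
      (fun y hy => hl y hy i j k) (fun y hy h => h1 y hy h i j k) (fun y hy h => h2 y hy h i j k) hx
  obtain ⟨A, a1, a2, a3⟩ := lin_part hne hfree ha hab hg0 hg hP hQ hU hsub
    (hV.of_le (Jt.kle 2)) he k
  exact ⟨A, a1, k, a2, a3⟩

end Crest.Agent.N207.M

end
end

-- ▼ part N207/M/Defs

/-!
# Row 207, X3 (helper50): the class of metrics and the leaves
-/

set_option autoImplicit false

open scoped ContDiff ENNReal
open Metric Set Filter Topology MeasureTheory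
open Crest.GeometryTopology.CoordMetric
open Crest.Agent.NLib.Ell Crest.Agent.N207.I Crest.Agent.N207.CB Crest.Agent.N207.N
  Crest.Agent.N207.Ga
open Crest.Agent.R238 (Ell)

noncomputable section

namespace Crest.Agent.N207.M

/-- the doubled cell -/
abbrev BB : Set E4 := ball 0 2

/-- **M1**: interior estimate for the rough Laplacian on 1-forms, `L²` on the right -/
def M1 : Prop := ∀ (k : ℕ) (K : ℝ), 1 ≤ K → ∃ C : ℝ, 0 < C ∧
  ∀ (G : MetricField 4) (o : Tn 4 1) (N S : ℝ), 0 ≤ N → 0 ≤ S → IsRiemannianOn G BB → SmT o BB →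
    (∀ a b, CKA (1 / 2) BB (k + 2) K fun y => G y a b) → (∀ y ∈ BB, Ell K⁻¹ K (G y)) →
    (∀ j, CKA (1 / 2) BB k N fun y => lapT G o y ![j]) →
    (∀ j, IntegrableOn (fun y => o y ![j] ^ 2) BB ∧ ∫ y in BB, o y ![j] ^ 2 ≤ S ^ 2) →
    ∀ j, CKA (1 / 2) B1 (k + 2) (C * (N + S)) fun y => o y ![j]

/-- **M2**: the rough Laplacian of an almost flat metric is almost the flat Laplacian -/
def M2 : Prop := ∀ k : ℕ, ∃ C : ℝ, 0 < C ∧
  ∀ (U : Set E4) (G : MetricField 4) (o : Tn 4 1) (w Mo : ℝ), w ≤ 1 → IsRiemannianOn G U → SmT o U →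
    (∀ a b, CKA (1 / 2) U (k + 2) w (TD.dv G a b)) → (∀ y ∈ U, Ell 2⁻¹ 2 (G y)) →
    (∀ j, CKA (1 / 2) U (k + 2) Mo fun y => o y ![j]) →
    ∀ j, CKA (1 / 2) U k (C * (w * Mo)) fun y => lapT G o y ![j] - lap0 (fun z => o z ![j]) y

/-- **PW**: pointwise comparison with the flat quantities -/
def PW : Prop := ∀ τ : ℝ, 0 < τ → ∃ ε : ℝ, 0 < ε ∧
  ∀ (G : MetricField 4) (o : Tn 4 1) (f : E4 → ℝ) (x : E4) (ρ : ℝ), 0 < ρ → (G x).PosDef →
    (∀ a b, |TD.dv G a b x| ≤ ε) → (∀ a b c, ρ * |pderiv c (fun y => G y a b) x| ≤ ε) →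
    ∑ j, Hd.g2 (fun y => o y ![j]) x ≤
        (1 + τ) * (√(G x).det * nsq G (cov G o) x) + τ * ((∑ j, o x ![j] ^ 2) / ρ ^ 2) ∧
      ∑ j, o x ![j] ^ 2 ≤ (1 + τ) * (√(G x).det * nsq G o x) ∧
      √(G x).det * (nsq G (dT f) x * nsq G o x) ≤ (1 + τ) * (Hd.g2 f x * ∑ j, o x ![j] ^ 2)

/-- **PE**: pointwise comparison for elliptic matrices -/
def PE : Prop := ∀ Λ : ℝ, 1 ≤ Λ → ∃ C : ℝ, 1 ≤ C ∧
  ∀ (G : MetricField 4) (o : Tn 4 1) (x : E4), Ell Λ⁻¹ Λ (G x) →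
    ∑ j, o x ![j] ^ 2 ≤ C * (√(G x).det * nsq G o x) ∧
      √(G x).det * nsq G o x ≤ C * ∑ j, o x ![j] ^ 2

variable {M : Type*} (T : TD M)

/-- the class of metrics on `glob L` (vertex units) -/
structure Cls (γ : ℝ) (C : ℕ → ℝ) (Λ : ℝ) (L : T.V → ℝ) (H : Fam T) : Prop where
  met : (T.glob L).IsMet (rt T L H)
  neck : ∀ w (k : ℕ) p q, ∀ x ∈ (T.glob L).U (Sum.inr w),
    ‖iteratedFDeriv ℝ k (TD.dv (H (Sum.inr w)) p q) x‖ ≤ C k * (‖x‖ ^ k)⁻¹ * T.wt γ L w x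
  elln : ∀ w, ∀ x ∈ (T.glob L).U (Sum.inr w), Ell 2⁻¹ 2 (H (Sum.inr w) x)
  ball : ∀ a (k : ℕ) p q, ∀ x : E4, ‖x‖ ≤ 15 / 8 →
    ‖iteratedFDeriv ℝ k (fun y => H (Sum.inl a) y p q) x‖ ≤ C k
  ellb : ∀ a, ∀ x : E4, ‖x‖ ≤ 15 / 8 → Ell Λ⁻¹ Λ (H (Sum.inl a) x)

/-- **GBC**: the reference metrics are in one class -/
def GBC (g : T.V → Fam T) (γ : ℝ) : Prop :=
  ∃ (C : ℕ → ℝ) (Λ T1 : ℝ), 2 ≤ Λ ∧ ∀ T0, T1 ≤ T0 → ∃ l0 : ℝ, ∀ L, Lg T l0 L →
    Cls T γ C Λ L (gbL T g T0 L)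

/-- **HG**: the Hardy inequality on `glob L`, uniform in the class -/
def HG : Prop := ∀ (γ : ℝ) (C : ℕ → ℝ) (Λ : ℝ), 2 ≤ Λ → ∃ c : ℝ, 0 < c ∧
  ∀ L H, T.Long L → Cls T γ C Λ L H → ∀ (U : T.S → Tn 4 1) (S : Set T.Car),
    (T.glob L).Sec U → (T.glob L).CS S → (T.glob L).Van U S →
    c * (T.glob L).int T.χ (rt T L H) (fun s x => nsq (rt T L H s) (U s) x / Sk.rw T L s x ^ 2) ≤
      (T.glob L).int T.χ (rt T L H) fun s x => nsq (rt T L H s) (cov (rt T L H s) (U s)) x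

/-- **LEX**: existence of a finite energy solution -/
def LEX : Prop := ∀ (γ : ℝ) (C : ℕ → ℝ) (Λ : ℝ) (L : T.V → ℝ) (H : Fam T), 2 ≤ Λ → T.Long L →
  Cls T γ C Λ L H → ∀ (F : T.S → Tn 4 1) (R' : ℝ), (T.glob L).Sec F →
    (∀ x : E4, R' ≤ ‖x‖ → F (Sum.inr T.root) x = 0) →
    ∃ om : T.S → Tn 4 1, (T.glob L).Sec om ∧
      (∀ s, ∀ x ∈ (T.glob L).U s, lapT (rt T L H s) (om s) x = F s x) ∧ N.En T L (rt T L H) om < ⊤

/-- **TRF**: transfer of the source norm to the doubled cells -/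
def TRF : Prop := ∀ γ' : ℝ, 0 < γ' → γ' ≤ 1 → ∃ C l0 : ℝ, 0 < C ∧ ∀ L, Lg T l0 L →
  ∀ (F : T.S → Tn 4 1) (N : ℝ), 0 ≤ N → (T.glob L).Sec F → YN T γ' L N F →
    ∀ s, ∀ x0 ∈ T.gK L s, ∀ j,
      CKA (1 / 2) BB 2 (C * N * kap T γ' L s x0) fun y => clY T F s x0 y ![j]

/-- **CEL**: the metric read in the doubled cells -/
def CEL : Prop := ∀ (γ : ℝ) (C : ℕ → ℝ) (Λ : ℝ), 0 < γ → γ ≤ 1 → 2 ≤ Λ → ∃ K : ℝ, Λ ≤ K ∧
  ∀ L H, T.Long L → Cls T γ C Λ L H → ∀ s, ∀ x0 ∈ T.gK L s,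
    (∀ y ∈ BB, pt T s x0 y ∈ (T.glob L).U s) ∧ IsRiemannianOn (clM T H s x0) BB ∧
    (∀ a b, CKA (1 / 2) BB 4 K fun y => clM T H s x0 y a b) ∧
    (∀ y ∈ BB, Ell K⁻¹ K (clM T H s x0 y)) ∧
    (∀ w, s = Sum.inr w → (∀ y ∈ BB, Ell 2⁻¹ 2 (clM T H s x0 y)) ∧
      ∀ a b, CKA (1 / 2) BB 4 (K * T.wt γ L w x0) (TD.dv (clM T H s x0) a b)) ∧
    ∀ om : T.S → Tn 4 1, ∀ y ∈ BB, lapT (clM T H s x0) (clX T L om s x0) y =
      clY T (fun s => lapT (rt T L H s) (om s)) s x0 y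

end Crest.Agent.N207.M

end
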