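import Crest.Agent.N207.M.Defs
import Crest.Agent.N207.I.Car4
import Crest.Agent.N207.A.Arr

/-!
# Row 207, X3 (helper50): radial families on `glob L`, supports, constant rescalings of the metric
-/

set_option autoImplicit false

open scoped ContDiff
open Metric Set Filter Topology MeasureTheory
open Crest.GeometryTopology.CoordMetric
open Crest.Agent.N207.I Crest.Agent.N207.I.TD Crest.Agent.N207.CB Crest.Agent.N207.N

noncomputable section

namespace Crest.Agent.N207.M

section scale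

variable {k : ℕ} {c : ℝ} {G : MetricField 4}

theorem inv_smul_mat (hc : c ≠ 0) (A : Matrix (Fin 4) (Fin 4) ℝ) : (c • A)⁻¹ = c⁻¹ • A⁻¹ := by
  by_cases h : IsUnit A.det
  · refine Matrix.inv_eq_left_inv ?_
    rw [Matrix.smul_mul, Matrix.mul_smul, smul_smul, inv_mul_cancel₀ hc, one_smul,
      Matrix.nonsing_inv_mul _ h]
  · have h2 : ¬ IsUnit (c • A).det := by
      rw [Matrix.det_smul]
      exact fun h' => h (isUnit_of_mul_isUnit_right h')
    rw [Matrix.nonsing_inv_apply_not_isUnit _ h, Matrix.nonsing_inv_apply_not_isUnit _ h2, smul_zero]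

theorem chr_smul_met (hc : c ≠ 0) (G : MetricField 4) :
    christoffel (fun y => c • G y) = christoffel G := by
  funext x l i j
  simp only [christoffel, inverseField, inv_smul_mat hc, Matrix.smul_apply, smul_eq_mul, pd_cmul]
  congr 1
  refine Finset.sum_congr rfl fun m _ => ?_
  field_simp

theorem cov_smul_met (hc : c ≠ 0) (G : MetricField 4) (T : Tn 4 k) :
    cov (fun y => c • G y) T = cov G T := by
  funext y J
  simp only [cov, chr_smul_met hc]

theorem ip_smul_met (hc : c ≠ 0) (G : MetricField 4) (S T : Tn 4 k) (x : E4) :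
    ip (fun y => c • G y) S T x = c⁻¹ ^ k * ip G S T x := by
  simp only [ip, inv_smul_mat hc, Ar.ipA_scale]

theorem nsq_smul_met (hc : c ≠ 0) (G : MetricField 4) (T : Tn 4 k) (x : E4) :
    nsq (fun y => c • G y) T x = c⁻¹ ^ k * nsq G T x := ip_smul_met hc G T T x


theorem sqrt_det_smul (A : Matrix (Fin 4) (Fin 4) ℝ) : √(c • A).det = c ^ 2 * √A.det := by
  rw [Matrix.det_smul, Fintype.card_fin, show c ^ 4 = (c ^ 2) ^ 2 by ring,
    Real.sqrt_mul (sq_nonneg _), Real.sqrt_sq (sq_nonneg _)]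

end scale

variable {M : Type*} {T : TD M} {L : T.V → ℝ}

theorem rt_eq (H : Fam T) (s : T.S) : rt T L H s = fun y => T.eps L (T.un s) ^ 2 • H s y := rfl

theorem eps2_ne (L : T.V → ℝ) (v : T.V) : T.eps L v ^ 2 ≠ 0 := pow_ne_zero _ (eps_pos L v).ne'

/-- radial scalar families -/
def radF (T : TD M) (c : T.V → ℝ) (f : T.V → ℝ → ℝ) : T.S → E4 → ℝ :=
  Sum.elim (fun a _ => c (T.vx a)) fun w x => f w ‖x‖

theorem radF_comp {c : T.V → ℝ} {f : T.V → ℝ → ℝ} (h1 : ∀ w s, s < 4 → f w s = c w)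
    (h2 : ∀ w, w ≠ T.root → ∀ s, T.r / 4 * Real.exp (L w) < s → f w s = c (T.par w)) :
    (T.glob L).CompF (radF T c f) := by
  have key : ∀ s, ∀ x : E4, radF T c f s x = Sum.elim (fun p : T.V × M => c p.1)
      (fun p : T.V × Set E4 => f p.1 (sSup (norm '' p.2))) ((T.glob L).c s x) := by
    rintro (a | w) x
    · rfl
    · rw [glob_c_inr]
      split_ifs with a1 a2
      · exact h1 w _ a1
      · exact h2 w a2.1 _ (lt_nrm_exp.1 a2.2)
      · have : norm '' T.orb w x = {‖x‖} := by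
          refine Subset.antisymm ?_ (singleton_subset_iff.2 ⟨x, mem_orb w x, rfl⟩)
          rintro _ ⟨_, ⟨γ, -, rfl⟩, rfl⟩
          exact LinearIsometryEquiv.norm_map γ x
        simp only [Sum.elim_inr, this, csSup_singleton]
        rfl
  intro a b x _ y _ e
  rw [key, key, e]

theorem radF_sm {c : T.V → ℝ} {f : T.V → ℝ → ℝ} (hf : ∀ w, ContDiffOn ℝ ∞ (f w) (Ioi 0))
    (s : T.S) : ContDiffOn ℝ ∞ (radF T c f s) ((T.glob L).U s) := by
  rcases s with a | w
  · exact contDiffOn_const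
  · have h : ∀ x ∈ (T.glob L).U (Sum.inr w), 0 < ‖x‖ := fun x hx => zero_lt_one.trans hx.1
    exact (hf w).comp (fun x hx => (contDiffAt_norm ℝ (norm_pos_iff.1 (h x hx))).contDiffWithinAt) h

/-- a tensor living in the middle of one neck -/
def nkT (T : TD M) {k : ℕ} (w : T.V) (Z : Tn 4 k) : T.S → Tn 4 k := fun s =>
  if s = Sum.inr w then Z else 0

theorem pullT_zero_at {k : ℕ} {F : E4 → E4} {S : Tn 4 k} {x : E4} (h : S (F x) = 0) :
    pullT F S x = 0 := by
  funext I; simp [pullT, evT, h]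

theorem nkT_sec (h : T.Ok) (hL : T.Long L) {k : ℕ} {w : T.V} {Z : Tn 4 k}
    (hs : SmT Z ((T.glob L).U (Sum.inr w))) (h1 : ∀ x : E4, ‖x‖ < 4 → Z x = 0)
    (h2 : w ≠ T.root → ∀ x : E4, T.r / 4 * Real.exp (L w) < ‖x‖ → Z x = 0)
    (h3 : ∀ γ ∈ T.Γ w, ∀ x ∈ (T.glob L).U (Sum.inr w), Z x = pullT γ Z x) :
    (T.glob L).Sec (nkT T w Z) := by
  have key : ∀ s v, ∀ x : E4, sc (lm L) s v • x ∈ (T.base v).U s → nkT T w Z s x = 0 := by
    intro s v x hx
    unfold nkT
    split_ifs with e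
    · subst e
      by_cases hv : w = v
      · subst hv
        simp only [sc, Sum.elim_inr, lm, if_true, one_smul] at hx
        exact h1 x (mem_base_out.1 hx).2
      · simp only [sc, Sum.elim_inr, lm, if_neg hv] at hx
        have := (mem_base_inn hv).1 hx
        exact h2 this.1.1 x (lt_nrm_exp.1 this.2.1)
    · rfl
  refine ⟨fun s => ?_, (h.str_glob hL).compat_of h (fun a b x F v _ _ e => ?_) fun u γ hγ x hx => ?_⟩
  · unfold nkT
    split_ifs with e
    · subst e; exact hs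
    · exact SmT.zero
  · rw [key a v x e.self_of_nhds.1, pullT_zero_at (key b v _ e.self_of_nhds.2.1)]
  · unfold nkT
    split_ifs with e
    · obtain rfl := Sum.inr.inj e
      exact h3 γ hγ x hx
    · exact (pullT_zero_at rfl).symm

theorem exists_gK (h : T.Ok) (hL : T.Long L) {b : T.S} {y : E4} (hy : y ∈ (T.glob L).U b) :
    ∃ s, ∃ x ∈ T.gK L s, (T.glob L).c s x = (T.glob L).c b y := by
  have hp := h.glob_pou hL
  obtain ⟨s, -, hs⟩ := Finset.exists_ne_zero_of_sum_ne_zero ((hp.sum b y hy).trans_ne one_ne_zero)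
  exact ⟨s, hp.supp s b y hy hs⟩

theorem gK_of_χ (h : T.Ok) (hL : T.Long L) {s : T.S} {y : E4} (hy : y ∈ (T.glob L).U s)
    (h0 : T.χ s ((T.glob L).c s y) ≠ 0) : y ∈ T.gK L s := by
  have hp := h.glob_pou hL
  obtain ⟨x, hx, e⟩ := hp.supp s s y hy h0
  obtain ⟨γ, -, rfl⟩ := ((h.glob_ok hL).fib s x (hp.sub s hx) y hy).1 e
  rcases s with a | w
  · rw [mem_gK_inl] at hx ⊢; simpa using hx
  · rw [mem_gK_inr] at hx ⊢; simpa using hx

theorem isClosed_gK (s : T.S) : IsClosed (T.gK L s) := by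
  rcases s with a | w
  · exact isClosed_closedBall
  · by_cases hw : w = T.root
    · have : T.gK L (Sum.inr w) = {x | 3 / 2 ≤ ‖x‖} := by ext x; simp [mem_gK_inr, hw]
      rw [this]; exact isClosed_le continuous_const continuous_norm
    · have : T.gK L (Sum.inr w) =
          {x | 3 / 2 ≤ ‖x‖} ∩ {x | ‖x‖ ≤ 3 / 4 * T.r * Real.exp (L w)} := by
        ext x; simp [mem_gK_inr, hw]
      rw [this]
      exact (isClosed_le continuous_const continuous_norm).inter
        (isClosed_le continuous_norm continuous_const)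

/-- families that vanish far out on the root end have compact support -/
theorem exists_cs (h : T.Ok) (hL : T.Long L) {k : ℕ} {Z : T.S → Tn 4 k}
    (hZ : (T.glob L).Compat Z) {R : ℝ} (h0 : ∀ x : E4, R ≤ ‖x‖ → Z (Sum.inr T.root) x = 0) :
    ∃ S, (T.glob L).CS S ∧ (T.glob L).Van Z S := by
  have hp := h.glob_pou hL
  set ρ : T.S → ℝ := Sum.elim (fun _ => 2) fun w => max R (T.r * Real.exp (L w)) with hρ
  refine ⟨_, ⟨fun s => T.gK L s ∩ closedBall 0 (ρ s), fun s => ⟨(isCompact_closedBall _ _).inter_left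
    (isClosed_gK s), inter_subset_left.trans (hp.sub s)⟩, Subset.rfl⟩, fun b y hy hne => ?_⟩
  obtain ⟨s, x, hx, e⟩ := exists_gK h hL hy
  have hx' := hp.sub s hx
  refine mem_iUnion.2 ⟨s, x, ⟨hx, mem_closedBall_zero_iff.2 ?_⟩, e⟩
  rcases s with a | w
  · exact (mem_glob_inl.1 hx').le
  · by_cases hw : w = T.root
    · subst hw
      refine le_max_of_le_left (not_lt.1 fun hlt => hne ?_)
      exact hZ.eq_zero (h.glob_ok hL) hy hx' e.symm (h0 x hlt.le)
    · exact le_max_of_le_right (hx'.2 hw).le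

end Crest.Agent.N207.M

end
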