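import Crest.Agent.N207.M.Df2
import Crest.Agent.N207.M.Ce
import Crest.Agent.N207.CB.Cut
import Crest.Agent.N207.AI.Ev
import Crest.Agent.N207.K.Hd4
import Crest.Agent.N207.K.Hd8

-- ▼ part N207/M/As1
section

/-!
# Row 207, X3 (helper50): assembly, part 1 (small tools, the weighted cell bound, the energy step)
-/

set_option autoImplicit false

open scoped ContDiff ENNReal
open Metric Set Filter Topology MeasureTheory
open Crest.GeometryTopology.CoordMetric
open Crest.Agent.NLib.Ell Crest.Agent.N207.I Crest.Agent.N207.I.TD Crest.Agent.N207.CB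
  Crest.Agent.N207.N Crest.Agent.N207.Ga

noncomputable section

namespace Crest.Agent.N207.M.As

theorem _root_.Crest.Agent.N207.M.QC.amono {k : ℕ} {N N' : ℝ} {o : Tn 4 1} (h : QC k N o) (e : N ≤ N') : QC k N' o :=
  fun j => (h j).mono e

theorem _root_.Crest.Agent.N207.M.QC.aof_le {k k' : ℕ} {N : ℝ} {o : Tn 4 1} (h : QC k N o) (e : k' ≤ k) : QC k' N o :=
  fun j => (h j).of_le e

theorem _root_.Crest.Agent.N207.M.LB.amono {S S' : ℝ} {o : Tn 4 1} (h : LB S o) (h0 : 0 ≤ S) (e : S ≤ S') : LB S' o :=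
  fun j => ⟨(h j).1, (h j).2.trans (pow_le_pow_left₀ h0 e 2)⟩

/-- square root of the volume of the doubled cell -/
def vb : ℝ := √((volume : Measure E4).real BB)

theorem vb_nonneg : 0 ≤ vb := Real.sqrt_nonneg _

theorem _root_.Crest.Agent.N207.M.LB.apert {S c : ℝ} {o o' : Tn 4 1} (h : LB S o) (h0 : 0 ≤ S) (hc : 0 ≤ c)
    (ho : ∀ j, ContinuousOn (fun y => o' y ![j]) BB)
    (e : ∀ y ∈ BB, ∀ j, |o' y ![j] - o y ![j]| ≤ c) : LB (2 * S + 2 * c * vb) o' := fun j => by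
  have hf : (volume : Measure E4) BB < ⊤ := measure_ball_lt_top
  have i1 : IntegrableOn (fun y => 2 * o y ![j] ^ 2 + 2 * c ^ 2) BB :=
    ((h j).1.const_mul 2).add (integrableOn_const hf.ne)
  have p : ∀ y ∈ BB, o' y ![j] ^ 2 ≤ 2 * o y ![j] ^ 2 + 2 * c ^ 2 := fun y hy => by
    have := sq_le_sq' (abs_le.1 (e y hy j)).1 (abs_le.1 (e y hy j)).2
    nlinarith [sq_nonneg (o' y ![j] - 2 * o y ![j])]
  have i2 : IntegrableOn (fun y => o' y ![j] ^ 2) BB :=
    i1.mono' (((ho j).pow 2).aestronglyMeasurable measurableSet_ball) (by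
      filter_upwards [ae_restrict_mem measurableSet_ball] with y hy
      rw [Real.norm_of_nonneg (sq_nonneg _)]; exact p y hy)
  refine ⟨i2, (setIntegral_mono_on i2 i1 measurableSet_ball p).trans ?_⟩
  rw [integral_add ((h j).1.const_mul 2) (integrableOn_const hf.ne), integral_const_mul,
    setIntegral_const, smul_eq_mul]
  have e2 : vb ^ 2 = (volume : Measure E4).real BB := Real.sq_sqrt measureReal_nonneg
  rw [← e2]
  nlinarith [(h j).2, mul_nonneg h0 (mul_nonneg hc vb_nonneg), sq_nonneg S, sq_nonneg (c * vb)]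

theorem abs_lin_le (A : E4 →L[ℝ] E4) {x0 y : E4} (h0 : 0 < ‖x0‖) (hy : y ∈ BB) (j : Fin 4) :
    |lin A x0 y ![j]| ≤ 10 * ‖A‖ := by
  have h1 : ‖x0 + (‖x0‖ / 8) • y‖ ≤ 10 * (‖x0‖ / 8) := by
    refine (norm_add_le _ _).trans ?_
    rw [norm_smul, Real.norm_of_nonneg (by positivity)]
    nlinarith [mem_ball_zero_iff.1 hy]
  have h2 : |A (x0 + (‖x0‖ / 8) • y) j| ≤ ‖A‖ * (10 * (‖x0‖ / 8)) :=
    (PiLp.norm_apply_le _ j).trans ((A.le_opNorm _).trans (by gcongr))
  show |(‖x0‖ / 8)⁻¹ * A (x0 + (‖x0‖ / 8) • y) j| ≤ _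
  rw [abs_mul, abs_of_pos (by positivity), inv_mul_le_iff₀ (by positivity)]
  linarith

theorem lin_zero (x0 : E4) : lin 0 x0 = 0 := by funext y I; simp [lin]

theorem lapT_zero' (G : MetricField 4) : lapT G (0 : Tn 4 1) = 0 := by
  funext y I; simp [lapT, cov_zero, trT]

variable {M : Type*} {T : TD M} {L : T.V → ℝ}

theorem pt_zero (s : T.S) (x : E4) : pt T s x 0 = x := by simp [pt]

theorem pt_mem (h : T.Ok) {s : T.S} {x0 y : E4} (hx : x0 ∈ T.gK L s) (hy : y ∈ BB) :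
    pt T s x0 y ∈ (T.glob L).U s := by
  have hy' := mem_ball_zero_iff.1 hy
  rcases s with a | w
  · rw [mem_glob_inl]
    refine (norm_add_le _ _).trans_lt ?_
    have := mem_gK_inl.1 hx
    rw [norm_smul, show rad T (Sum.inl a) x0 = 1 / 8 from rfl, Real.norm_of_nonneg (by norm_num)]
    linarith
  · have e : ‖rad T (Sum.inr w) x0 • y‖ ≤ ‖x0‖ / 4 := by
      rw [norm_smul, show rad T (Sum.inr w) x0 = ‖x0‖ / 8 from rfl,
        Real.norm_of_nonneg (by positivity)]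
      nlinarith [norm_nonneg x0]
    have e1 := norm_add_le x0 (rad T (Sum.inr w) x0 • y)
    have e2 := norm_sub_norm_le x0 (-(rad T (Sum.inr w) x0 • y))
    rw [sub_neg_eq_add, norm_neg] at e2
    refine ⟨by have := hx.1; unfold pt; linarith, fun hw => ?_⟩
    have := hx.2 hw
    have := mul_pos h.r_pos (Real.exp_pos (L w))
    unfold pt; linarith

theorem clX_cont (h : T.Ok) {om : T.S → Tn 4 1} (ho : (T.glob L).Sec om) {s : T.S} {x0 : E4}
    (hx : x0 ∈ T.gK L s) (j : Fin 4) : ContinuousOn (fun y => clX T L om s x0 y ![j]) BB := by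
  have h1 : Continuous (pt T s x0) := by unfold pt; fun_prop
  have h2 := (ho.sm s ![j]).continuousOn.comp h1.continuousOn fun _ hy => pt_mem h hx hy
  exact (continuousOn_const (c := (T.eps L (T.un s) ^ 2 * rad T s x0)⁻¹)).mul h2

theorem t_le {w : T.V} (hw : w ≠ T.root) {x : E4} (hx : x ∈ T.gK L (Sum.inr w)) :
    Real.exp (-L w) * ‖x‖ ≤ 3 / 4 * T.r := by
  rw [Real.exp_neg, inv_mul_le_iff₀ (Real.exp_pos _)]
  linarith [hx.2 hw]

theorem wt_mono (h : T.Ok) {γ γ' : ℝ} (e : γ' ≤ γ) {w : T.V} {x : E4}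
    (hx : x ∈ T.gK L (Sum.inr w)) : T.wt γ L w x ≤ T.wt γ' L w x := by
  have h1 : 1 ≤ ‖x‖ := le_trans (by norm_num) hx.1
  refine add_le_add (Real.rpow_le_rpow_of_exponent_le h1 (by linarith)) ?_
  split_ifs with hw
  · exact le_rfl
  · exact Real.rpow_le_rpow_of_exponent_ge (by positivity)
      ((t_le hw hx).trans (by linarith [h.r_lt])) e

theorem le_wt (γ : ℝ) (w : T.V) (x : E4) : ‖x‖ ^ (-γ) ≤ T.wt γ L w x :=
  le_add_of_nonneg_right (by split_ifs <;> positivity)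

theorem wt_nonneg (γ : ℝ) (w : T.V) (x : E4) : 0 ≤ T.wt γ L w x :=
  (Real.rpow_nonneg (norm_nonneg _) _).trans (le_wt γ w x)

theorem wt_le_two (h : T.Ok) {γ : ℝ} (h0 : 0 ≤ γ) {w : T.V} {x : E4}
    (hx : x ∈ T.gK L (Sum.inr w)) : T.wt γ L w x ≤ 2 := by
  refine (wt_mono h h0 hx).trans ?_
  simp only [wt, neg_zero, Real.rpow_zero]
  split_ifs <;> norm_num

theorem kap_mono (h : T.Ok) {γ γ' : ℝ} (e : γ' ≤ γ) {s : T.S} {x : E4}
    (hx : x ∈ T.gK L s) : kap T γ L s x ≤ kap T γ' L s x := by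
  rcases s with a | w
  · exact le_rfl
  · exact wt_mono h e hx

theorem kap_nonneg (γ : ℝ) (s : T.S) (x : E4) : 0 ≤ kap T γ L s x := by
  rcases s with a | w
  · exact zero_le_one
  · exact wt_nonneg γ w x

theorem L_nonneg (h : T.Ok) (hL : T.Long L) {w : T.V} (hw : w ≠ T.root) : 0 ≤ L w := by
  rw [← Real.one_le_exp_iff]
  nlinarith [hL w hw, h.r_lt, h.r_pos, Real.exp_pos (L w)]

theorem dsc_self (v : T.V) : Dsc T v v := ⟨le_rfl, by simp⟩

theorem _root_.Crest.Agent.N207.M.Dsc.apar (h : T.Ok) {v u : T.V} (hd : Dsc T v u) (hu : u ≠ v) :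
    u ≠ T.root ∧ Dsc T v (T.par u) := by
  have h1 : T.dep v < T.dep u := lt_of_le_of_ne hd.1 fun e => hu (by simpa [e] using hd.2)
  have h2 : u ≠ T.root := fun e => by rw [e, h.dep_root] at h1; omega
  have h3 := h.dep_par u h2
  refine ⟨h2, by omega, ?_⟩
  have := hd.2
  rwa [show T.dep u - T.dep v = T.dep (T.par u) - T.dep v + 1 by omega,
    Function.iterate_succ_apply] at this

theorem dsc_kid (h : T.Ok) {w : T.V} (hw : w ≠ T.root) : Dsc T (T.par w) w := by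
  have := h.dep_par w hw
  exact ⟨by omega, by rw [show T.dep w - T.dep (T.par w) = 1 by omega]; rfl⟩

theorem eps_le (h : T.Ok) (hL : T.Long L) {v u : T.V} (hd : Dsc T v u) :
    T.eps L u ≤ T.eps L v := by
  induction u using h.ind with
  | h0 =>
    by_cases e : T.root = v
    · rw [e]
    · exact absurd rfl (hd.apar h e).1
  | h1 w hw ih =>
    by_cases e : w = v
    · rw [e]
    · rw [h.eps_kid L hw]
      refine le_trans (mul_le_of_le_one_right (eps_pos _ _).le ?_) (ih (hd.apar h e).2)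
      exact Real.exp_le_one_iff.2 (by linarith [L_nonneg h hL hw])

theorem rw_kid (h : T.Ok) {w : T.V} (hw : w ≠ T.root) (x : E4) :
    Sk.rw T L (Sum.inr w) x = T.eps L (T.par w) * (Real.exp (-L w) * ‖x‖) := by
  rw [← mul_assoc, ← h.eps_kid L hw]; rfl

theorem rw_pos {s : T.S} {x : E4} (hx : x ∈ T.gK L s) : 0 < Sk.rw T L s x := by
  rcases s with a | w
  · exact mul_pos (eps_pos _ _) one_pos
  · exact mul_pos (eps_pos _ _) (lt_of_lt_of_le (by norm_num) hx.1)

theorem rw_le (h : T.Ok) (hL : T.Long L) {v : T.V} {s : T.S} (hs : s ≠ Sum.inr v)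
    (hd : Dsc T v (T.un s)) {x : E4} (hx : x ∈ T.gK L s) : Sk.rw T L s x ≤ T.eps L v := by
  rcases s with a | w
  · exact (mul_one _).trans_le (eps_le h hL hd)
  · obtain ⟨h1, h2⟩ := hd.apar h fun e => hs (congrArg _ e)
    rw [rw_kid (w := w) h h1]
    exact (mul_le_of_le_one_right (eps_pos _ _).le
      ((t_le (w := w) h1 hx).trans (by linarith [h.r_lt]))).trans (eps_le h hL h2)

theorem lg_mono {l0 l1 : ℝ} (h : Lg T l1 L) (e : l0 ≤ l1) : Lg T l0 L :=
  ⟨h.1, fun w hw => e.trans (h.2 w hw)⟩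

/-- the weighted cell bound -/
theorem wc (we : WE T) (cx : CX T) (rb : RB T) {γ Λ q δ : ℝ} (C : ℕ → ℝ) (hγ : 0 < γ)
    (hΛ : 2 ≤ Λ) (hq : 0 < q) (hq' : q < 4) (hδ : 0 < δ) : ∃ Cc l0 : ℝ, 0 < Cc ∧
      ∀ L H, Lg T l0 L → Cls T γ C Λ L H → ∀ V, SecC T L V → ∀ B : ℝ, 0 ≤ B →
        (∀ s, ∀ x ∈ T.gK L s, ∀ j, Sk.rw T L s x ^ q *
          |clY T (fun s => lapT (rt T L H s) (V s)) s x 0 ![j]| ≤ B * kap T δ L s x) →
        ∀ s, ∀ x0 ∈ T.gK L s, LB (Cc * B * Sk.rw T L s x0 ^ (-q)) (clX T L V s x0) := by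
  obtain ⟨Cw, l1, hw, we⟩ := we γ C Λ (q - 2) hγ hΛ (abs_lt.2 ⟨by linarith, by linarith⟩)
  obtain ⟨Cx, l2, hx, cx⟩ := cx γ C Λ q hΛ
  obtain ⟨Cr, hr, rb⟩ := rb γ C Λ q δ hΛ hδ
  refine ⟨Cx * (√Cw * Cr), max l1 l2, by positivity, fun L H hL hH V hV B hB e s x0 hx0 => ?_⟩
  have h1 := we L H (lg_mono hL (le_max_left _ _)) hH V hV
  rw [show 2 * (q - 2) - 2 = 2 * q - 6 by ring, show 2 * (q - 2) + 2 = 2 * q - 2 by ring] at h1
  have h2 := rb L H hL.1 hH _ B hB e
  have := cx L H (lg_mono hL (le_max_right _ _)) hH V hV (√Cw * Cr * B) (by positivity)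
    (h1.trans ((mul_le_mul_of_nonneg_left h2 hw.le).trans_eq (by
      rw [mul_assoc, mul_pow √Cw, Real.sq_sqrt hw.le]))) s x0 hx0
  rwa [← mul_assoc Cx] at this

end Crest.Agent.N207.M.As

end
end

-- ▼ part N207/M/As2
section

/-!
# Row 207, X3 (helper50): assembly, part 2 (the energy step and the neck step)
-/

set_option autoImplicit false

open scoped ContDiff ENNReal
open Metric Set Filter Topology MeasureTheory
open Crest.GeometryTopology.CoordMetric
open Crest.Agent.NLib.Ell Crest.Agent.N207.I Crest.Agent.N207.I.TD Crest.Agent.N207.CB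
  Crest.Agent.N207.N Crest.Agent.N207.Ga

noncomputable section

namespace Crest.Agent.N207.M.As

theorem rp_pos {a t c p : ℝ} (ha : 0 ≤ a) (ht : 0 ≤ t) (e : a ≤ c * t) (hc : 1 ≤ c) (h0 : 0 ≤ p)
    (h1 : p ≤ 1) : a ^ p ≤ c * t ^ p := by
  refine (Real.rpow_le_rpow ha e h0).trans ?_
  rw [Real.mul_rpow (by linarith) ht]
  exact mul_le_mul_of_nonneg_right ((Real.rpow_le_rpow_of_exponent_le hc h1).trans_eq
    (Real.rpow_one c)) (by positivity)

theorem rp_neg {a x c p : ℝ} (hx : 0 < x) (e : x ≤ c * a) (hc : 1 ≤ c) (h0 : 0 ≤ p) (h1 : p ≤ 1) :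
    a ^ (-p) ≤ c * x ^ (-p) := by
  have ha : 0 < a := (pos_iff_pos_of_mul_pos (hx.trans_le e)).1 (by linarith)
  rw [Real.rpow_neg ha.le, Real.rpow_neg hx.le, ← Real.inv_rpow ha.le, ← Real.inv_rpow hx.le]
  refine rp_pos (by positivity) (by positivity) ?_ hc h0 h1
  rwa [le_mul_inv_iff₀ hx, inv_mul_le_iff₀ ha, mul_comm]

variable {M : Type*} (T : TD M)

/-- the induction hypothesis at the vertex `v` -/
def PV (γ' : ℝ) (L : T.V → ℝ) (om : T.S → Tn 4 1) (N' : ℝ) (v : T.V) : Prop :=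
  ∃ (A : E4 →L[ℝ] E4) (R : ℝ), (∀ g ∈ T.Γ v, ∀ x, A (g x) = g (A x)) ∧ ‖A‖ ≤ N' ∧ 16 ≤ R ∧
    (v ≠ T.root → 2 * R ≤ T.r / 4 * Real.exp (L v) ∧ R ^ 2 ≤ Real.exp (L v)) ∧
    (∀ x0 ∈ T.gK L (Sum.inr v), 4 / 5 * R ≤ ‖x0‖ → QC 4 N' (clX T L om (Sum.inr v) x0)) ∧
    ∀ x : E4, R ≤ ‖x‖ → ‖x‖ ≤ 2 * R →
      QC 2 (N' * R ^ (-(γ' / 2))) (clX T L om (Sum.inr v) x - lin A x)

variable {T} {L : T.V → ℝ} {γ γ' Λ : ℝ}

theorem _root_.Crest.Agent.N207.M.Sol.asrc (h : T.Ok) {H : Fam T} {F om : T.S → Tn 4 1} {N : ℝ} (hS : Sol T γ' L H F om N)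
    {s : T.S} {x : E4} (hx : x ∈ T.gK L s) (j : Fin 4) :
    |clY T (fun s => lapT (rt T L H s) (om s)) s x 0 ![j]| ≤ N * kap T γ' L s x := by
  have := (hS.yn s x hx j).bdd (mem_ball_self one_pos)
  simp only [clY, hS.eq s _ (pt_mem h hx (mem_ball_self two_pos))]
  exact this

theorem stepA (h : T.Ok) (we : WE T) (cx : CX T) (rb : RB T) (ce : CE T) (ct : CT T) (C : ℕ → ℝ)
    (h0 : 0 < γ') (h1 : 2 * γ' ≤ γ) (h2 : γ ≤ 1) (hΛ : 2 ≤ Λ) : ∃ Ca l0 : ℝ, 1 ≤ Ca ∧
      ∀ L H F om N, Lg T l0 L → Cls T γ C Λ L H → Sol T γ' L H F om N → ∀ v N', N ≤ N' →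
        PV T γ' L om N' v →
        (∀ s, T.un s = v → ∀ x0 ∈ T.gK L s, QC 4 (Ca * N') (clX T L om s x0)) ∧
        ∀ w, w ≠ T.root → T.par w = v → ∀ x0 ∈ T.gK L (Sum.inr w),
          QC 4 (Ca * N' * (Real.exp (-L w) * ‖x0‖) ^ (-(γ' / 4))) (clX T L om (Sum.inr w) x0) := by
  obtain ⟨Cc, l1, c1, wc⟩ := wc we cx rb (q := γ' / 4) (δ := γ' / 4) C (show 0 < γ by linarith) hΛ
    (by linarith) (by linarith) (by linarith)
  obtain ⟨Ce, l2, c2, ce⟩ := ce γ γ' C Λ h0 (by linarith) h2 hΛ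
  obtain ⟨Ct, c3, ct⟩ := ct γ C Λ (by linarith) h2 hΛ
  have hv := vb_nonneg
  set K := Cc * (2 * (1 + Ct)) with hK
  have K0 : 0 < K := by positivity
  refine ⟨1 + Ce * (2 + 2 * K + 2 * Ct * vb), max l1 l2, le_add_of_nonneg_right (by positivity),
    fun L H F om N hL hH hS v N' hN ⟨A, R, a1, a2, a3, a4, a5, a6⟩ => ?_⟩
  have N0 := hS.nn
  have N1 : 0 ≤ N' := N0.trans hN
  obtain ⟨V, v1, v2, v3, v4⟩ := ct L H om hL.1 hH hS.sec v A R _ a1 a3 (fun e => (a4 e).1) a6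
  have he := eps_pos L v
  have key := wc L H (lg_mono hL (le_max_left _ _)) hH V v1
    (2 * (1 + Ct) * N' * T.eps L v ^ (γ' / 4)) (by positivity) fun s x hx j => ?_
  rotate_left
  · have k0 := kap_nonneg (L := L) (γ' / 4) s x
    by_cases hs : s = Sum.inr v
    · subst hs
      have x1 : 1 ≤ ‖x‖ := le_trans (by norm_num) hx.1
      have x0 : 0 < ‖x‖ := by linarith
      have e1 : Sk.rw T L (Sum.inr v) x ^ (γ' / 4) = T.eps L v ^ (γ' / 4) * ‖x‖ ^ (γ' / 4) :=
        Real.mul_rpow he.le x0.le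
      have e2 : ∀ c : ℝ, c ≤ 2 * (1 + Ct) * N' * ‖x‖ ^ (-(γ' / 2)) →
          Sk.rw T L (Sum.inr v) x ^ (γ' / 4) * c ≤
            2 * (1 + Ct) * N' * T.eps L v ^ (γ' / 4) * kap T (γ' / 4) L (Sum.inr v) x := fun c hc => by
        have e3 : ‖x‖ ^ (γ' / 4) * ‖x‖ ^ (-(γ' / 2)) = ‖x‖ ^ (-(γ' / 4)) := by
          rw [← Real.rpow_add x0]; congr 1; ring
        calc _ ≤ T.eps L v ^ (γ' / 4) * ‖x‖ ^ (γ' / 4) * (2 * (1 + Ct) * N' * ‖x‖ ^ (-(γ' / 2))) := by
              rw [e1]; gcongr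
          _ = 2 * (1 + Ct) * N' * T.eps L v ^ (γ' / 4) * ‖x‖ ^ (-(γ' / 4)) := by rw [← e3]; ring
          _ ≤ _ := by gcongr; exact le_wt _ v x
      refine e2 _ ?_
      have p0 : 0 ≤ ‖x‖ ^ (-(γ' / 2)) := by positivity
      rcases lt_or_ge ‖x‖ R with b1 | b1
      · have w1 : T.wt γ' L v x ≤ 2 * ‖x‖ ^ (-(γ' / 2)) := by
          have w2 : ‖x‖ ^ (-γ') ≤ ‖x‖ ^ (-(γ' / 2)) :=
            Real.rpow_le_rpow_of_exponent_le x1 (by linarith)
          unfold wt
          split_ifs with hv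
          · linarith
          · have w3 : Real.exp (-L v) * ‖x‖ ≤ ‖x‖⁻¹ := by
              rw [Real.exp_neg, inv_mul_le_iff₀ (Real.exp_pos _), le_mul_inv_iff₀ x0]
              nlinarith [(a4 hv).2]
            have := Real.rpow_le_rpow (by positivity) w3 h0.le
            rw [Real.inv_rpow x0.le, ← Real.rpow_neg x0.le] at this
            linarith
        have w4 := wt_mono h (show γ' ≤ γ by linarith) hx
        have w5 := wt_nonneg (L := L) γ v x
        have s1 : _ ≤ N * T.wt γ' L v x := hS.asrc h hx j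
        have s2 := (abs_sub_abs_le_abs_sub _ _).trans ((v4 x hx j).1 b1)
        have s3 : ‖A‖ * T.wt γ L v x ≤ N' * (2 * ‖x‖ ^ (-(γ' / 2))) := by gcongr; linarith
        have s4 : N * T.wt γ' L v x ≤ N' * (2 * ‖x‖ ^ (-(γ' / 2))) := by gcongr; linarith
        nlinarith [mul_le_mul_of_nonneg_left s3 c3.le]
      · rcases le_or_gt ‖x‖ (2 * R) with b2 | b2
        · refine ((v4 x hx j).2.1 b1 b2).trans ?_
          have w1 : R ^ (-(γ' / 2)) ≤ 2 * ‖x‖ ^ (-(γ' / 2)) :=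
            rp_neg x0 b2 one_le_two (by linarith) (by linarith)
          nlinarith [mul_le_mul_of_nonneg_left w1 (mul_nonneg c3.le N1), mul_nonneg N1 p0]
        · rw [(v4 x hx j).2.2 b2, abs_zero]; positivity
    · by_cases hd : Dsc T v (T.un s)
      · have s1 := hS.asrc h hx j
        simp only [clY, (v2 s hs).1 hd] at s1 ⊢
        have s2 : Sk.rw T L s x ^ (γ' / 4) ≤ T.eps L v ^ (γ' / 4) :=
          Real.rpow_le_rpow (rw_pos hx).le (rw_le h hL.1 hs hd hx) (by linarith)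
        have s3 := kap_mono h (show γ' / 4 ≤ γ' by linarith) hx
        calc _ ≤ T.eps L v ^ (γ' / 4) * (N' * kap T (γ' / 4) L s x) :=
              mul_le_mul s2 (s1.trans (by gcongr; exact kap_nonneg _ _ _)) (abs_nonneg _)
                (by positivity)
          _ = 1 * N' * T.eps L v ^ (γ' / 4) * kap T (γ' / 4) L s x := by ring
          _ ≤ _ := by gcongr; linarith
      · simp only [clY, (v2 s hs).2 hd, lapT_zero', Pi.zero_apply, smul_zero, abs_zero, mul_zero]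
        positivity
  obtain ⟨ce1, -⟩ := ce L H F om N (lg_mono hL (le_max_right _ _)) hH hS
  have key2 : ∀ s, ∀ x0 ∈ T.gK L s, ∀ t : ℝ, 0 < t → Sk.rw T L s x0 = T.eps L v * t →
      LB (K * N' * t ^ (-(γ' / 4))) (clX T L V s x0) := fun s x0 hx t ht e => by
    have := key s x0 hx
    rw [e, Real.mul_rpow he.le ht.le, Real.rpow_neg he.le] at this
    convert this using 1
    have : T.eps L v ^ (γ' / 4) ≠ 0 := by positivity
    rw [hK]; field_simp
  have same : ∀ s, s ≠ Sum.inr v → Dsc T v (T.un s) → ∀ x0, clX T L V s x0 = clX T L om s x0 :=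
    fun s hs hd x0 => by unfold clX; rw [(v2 s hs).1 hd]
  refine ⟨fun s hs x0 hx => ?_, fun w hw hp x0 hx => ?_⟩
  · rcases s with a | w
    · have k := key2 _ x0 hx 1 one_pos (by rw [← hs]; rfl)
      rw [same _ (by simp) (hs ▸ dsc_self _), Real.one_rpow, mul_one] at k
      refine (ce1 _ x0 hx _ (by positivity) k).amono ?_
      show Ce * (N * 1 + K * N') ≤ _
      nlinarith [mul_nonneg c2.le N1, mul_nonneg c2.le (mul_nonneg K0.le N1),
        mul_nonneg c2.le (mul_nonneg (mul_nonneg c3.le hv) N1), mul_le_mul_of_nonneg_left hN c2.le]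
    · obtain rfl : w = v := hs
      rcases le_total ‖x0‖ (4 / 5 * R) with b | b
      · have x1 : 1 ≤ ‖x0‖ := le_trans (by norm_num) hx.1
        have k := (key2 _ x0 hx ‖x0‖ (by linarith) rfl).amono (by positivity)
          (mul_le_of_le_one_right (by positivity)
            (Real.rpow_le_one_of_one_le_of_nonpos x1 (by linarith)))
        have k2 := k.apert (o' := clX T L om (Sum.inr w) x0) (c := Ct * N') (by positivity)
          (by positivity) (clX_cont h hS.sec hx) fun y hy j => by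
            rw [abs_sub_comm]; exact (v3 x0 hx.1 b y hy j).trans (by gcongr)
        refine (ce1 _ x0 hx _ (by positivity) k2).amono ?_
        have k3 : N * kap T γ' L (Sum.inr w) x0 ≤ N' * 2 :=
          mul_le_mul hN (wt_le_two h h0.le hx) (kap_nonneg _ _ _) N1
        nlinarith [mul_le_mul_of_nonneg_left k3 c2.le]
      · exact (a5 x0 hx b).amono (le_mul_of_one_le_left N1 (le_add_of_nonneg_right (by positivity)))
  · subst hp
    have t0 : 0 < Real.exp (-L w) * ‖x0‖ := mul_pos (Real.exp_pos _) (by linarith [hx.1])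
    have k := key2 _ x0 hx _ t0 (rw_kid h hw x0)
    have hne : w ≠ T.par w := fun e => by have := h.dep_par w hw; rw [← e] at this; omega
    rw [same _ (fun e => hne (Sum.inr.inj e)) (dsc_kid h hw)] at k
    refine (ce1 _ x0 hx _ (by positivity) k).amono ?_
    have t1 : 1 ≤ (Real.exp (-L w) * ‖x0‖) ^ (-(γ' / 4)) :=
      Real.one_le_rpow_of_pos_of_le_one_of_nonpos t0 ((t_le hw hx).trans (by linarith [h.r_lt]))
        (by linarith)
    set t := (Real.exp (-L w) * ‖x0‖) ^ (-(γ' / 4))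
    have k3 : N * kap T γ' L (Sum.inr w) x0 ≤ N' * t * 2 :=
      mul_le_mul (hN.trans (le_mul_of_one_le_right N1 t1)) (wt_le_two h h0.le hx)
        (kap_nonneg _ _ _) (by positivity)
    have k4 : 0 ≤ N' * t := by positivity
    nlinarith [mul_le_mul_of_nonneg_left k3 c2.le, mul_nonneg c2.le (mul_nonneg K0.le k4),
      mul_nonneg c2.le (mul_nonneg (mul_nonneg c3.le hv) k4)]

theorem lb_of_lin (h : T.Ok) {om : T.S → Tn 4 1} (ho : (T.glob L).Sec om) {w : T.V} {x0 : E4}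
    (hx : x0 ∈ T.gK L (Sum.inr w)) {A : E4 →L[ℝ] E4} {S : ℝ} (hS : 0 ≤ S)
    (k : LB S (clX T L om (Sum.inr w) x0 - lin A x0)) :
    LB (2 * S + 2 * (10 * ‖A‖) * vb) (clX T L om (Sum.inr w) x0) :=
  k.apert hS (by positivity) (clX_cont h ho hx) fun y hy j => by
    rw [Pi.sub_apply, Pi.sub_apply, sub_sub_cancel]
    exact abs_lin_le A (by linarith [hx.1]) hy j

set_option maxHeartbeats 1600000 in
theorem stepB (h : T.Ok) (ce : CE T) (nc : NC T) (C : ℕ → ℝ) (h0 : 0 < γ') (h1 : 2 * γ' ≤ γ)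
    (h2 : γ ≤ 1) (hΛ : 2 ≤ Λ) : ∃ Cb l0 : ℝ, 1 ≤ Cb ∧
      ∀ L H F om N, Lg T l0 L → Cls T γ C Λ L H → Sol T γ' L H F om N → ∀ w N', w ≠ T.root →
        N ≤ N' → (∀ x0 ∈ T.gK L (Sum.inr w), QC 4
          (N' * (Real.exp (-L w) * ‖x0‖) ^ (-(γ' / 4))) (clX T L om (Sum.inr w) x0)) →
        PV T γ' L om (Cb * N') w := by
  obtain ⟨Ce, l2, c2, ce⟩ := ce γ γ' C Λ h0 (by linarith) h2 hΛ
  obtain ⟨Cn, c3, nc⟩ := nc γ γ' C Λ h0 (by linarith) (by linarith) h2 hΛ
  have hv := vb_nonneg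
  have hr := h.r_pos
  set c := 4 / T.r with hc
  have c4 : 4 ≤ c := by rw [hc, le_div_iff₀ hr]; linarith [h.r_lt]
  have cr : c * T.r = 4 := div_mul_cancel₀ _ hr.ne'
  set K := Cn * (c * (2 * c) + 4 * c) with hK
  have K0 : 0 < K := by positivity
  refine ⟨c + K + Ce * (3 + 4 * K + 20 * K * vb), max l2 (2 * Real.log (4 * c)),
    by have : 0 ≤ Ce * (3 + 4 * K + 20 * K * vb) := by positivity
       linarith, fun L H F om N hL hH hS w N' hw hN hq => ?_⟩
  have N0 := hS.nn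
  have N1 : 0 ≤ N' := N0.trans hN
  obtain ⟨ce1, ce2⟩ := ce L H F om N (lg_mono hL (le_max_left _ _)) hH hS
  set R := Real.exp (L w / 2) with hR
  have R0 : 0 < R := Real.exp_pos _
  have R1 : 4 * c ≤ R := by
    rw [← Real.exp_log (show 0 < 4 * c by positivity)]
    exact Real.exp_le_exp.2 (by linarith [le_max_right l2 (2 * Real.log (4 * c)), hL.2 w hw])
  have R2 : Real.exp (L w) = R ^ 2 := by rw [sq, ← Real.exp_add]; congr 1; ring
  have R3 : Real.exp (-L w) = (R ^ 2)⁻¹ := by rw [Real.exp_neg, R2]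
  have R4 : 16 ≤ T.r * R := by nlinarith
  set b := 3 / 4 * T.r * R ^ 2 with hb
  have b1 : 12 * R ≤ b := by nlinarith
  have b0 : 0 < b := by linarith
  set E := R ^ (γ' / 2) with hE
  have E1 : 1 ≤ E := Real.one_le_rpow (by linarith) (by linarith)
  have mem : ∀ x : E4, 3 / 2 ≤ ‖x‖ → ‖x‖ ≤ b → x ∈ T.gK L (Sum.inr w) := fun x a1 a2 =>
    ⟨a1, fun _ => by rwa [R2]⟩
  have mE : ∀ x : E4, 1 ≤ ‖x‖ → (Real.exp (-L w) * ‖x‖) ^ (-(γ' / 4)) ≤ E := fun x a1 => by
    refine (Real.rpow_le_rpow_of_nonpos (Real.exp_pos _)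
      (le_mul_of_one_le_right (Real.exp_pos _).le a1) (by linarith)).trans_eq ?_
    rw [hE, hR, ← Real.exp_mul, ← Real.exp_mul]; congr 1; ring
  have mc : ∀ x : E4, 4 / 5 * b ≤ ‖x‖ → (Real.exp (-L w) * ‖x‖) ^ (-(γ' / 4)) ≤ c := fun x a1 => by
    have := rp_neg (a := Real.exp (-L w) * ‖x‖) one_pos (c := c) (by
      rw [R3, ← mul_assoc, ← div_eq_mul_inv, div_mul_eq_mul_div, one_le_div (by positivity)]
      nlinarith [sq_nonneg R]) (by linarith) (show 0 ≤ γ' / 4 by linarith) (by linarith)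
    simpa using this
  have key := nc L H F om N hL.1 hH hS w b (c * N') (2 * N' * E)
    (fun x => N' * (Real.exp (-L w) * ‖x‖) ^ (-(γ' / 4))) (by linarith) (fun _ => by rw [R2])
    (by positivity) (by positivity) fun x hx => ⟨hq x (mem x hx.1 hx.2), ?_, fun _ => ?_, fun e => ?_⟩
  rotate_left
  · have x1 : 1 ≤ ‖x‖ := le_trans (by norm_num) hx.1
    have x0 : 0 < ‖x‖ := by linarith
    have m1 := mE x x1
    set t := Real.exp (-L w) * ‖x‖ with ht
    have t0 : 0 < t := by positivity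
    have t1 : t ≤ 1 := (t_le hw (mem x hx.1 hx.2)).trans (by linarith [h.r_lt])
    have p1 : t ^ γ' ≤ (‖x‖ / b) ^ γ' := Real.rpow_le_rpow t0.le (by
      rw [ht, R3, ← div_eq_inv_mul]
      exact div_le_div_of_nonneg_left x0.le b0 (by nlinarith [h.r_lt, sq_nonneg R])) h0.le
    have p2 : ‖x‖ ^ (-γ') ≤ (3 / 2 / ‖x‖) ^ γ' := by
      rw [Real.rpow_neg x0.le, ← Real.inv_rpow x0.le]
      exact Real.rpow_le_rpow (by positivity) (by rw [inv_eq_one_div]; gcongr; norm_num) h0.le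
    have p3 : ‖x‖ ^ (-γ) ≤ ‖x‖ ^ (-γ') := Real.rpow_le_rpow_of_exponent_le x1 (by linarith)
    have p4 : t ^ γ * t ^ (-(γ' / 4)) ≤ t ^ γ' := by
      rw [← Real.rpow_add t0]; exact Real.rpow_le_rpow_of_exponent_ge t0 t1 (by linarith)
    have p5 : ‖x‖ ^ (-γ) * t ^ (-(γ' / 4)) ≤ ‖x‖ ^ (-γ') * E :=
      mul_le_mul p3 m1 (by positivity) (by positivity)
    have p6 : 0 ≤ ‖x‖ ^ (-γ') := by positivity
    have p7 : 0 ≤ t ^ γ' := by positivity
    simp only [wt, if_neg hw, prof, ← ht]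
    calc _ ≤ N' * (‖x‖ ^ (-γ') * E + t ^ γ') + N' * (‖x‖ ^ (-γ') * E + t ^ γ') :=
          add_le_add (mul_le_mul hN (by nlinarith) (by positivity) N1) (by nlinarith)
      _ = 2 * N' * t ^ γ' + 2 * N' * E * ‖x‖ ^ (-γ') := by ring
      _ ≤ _ := by gcongr; linarith
  · have := mE x (le_trans (by norm_num) hx.1)
    nlinarith [mul_le_mul_of_nonneg_left this N1, mul_nonneg N1 (zero_le_one.trans E1)]
  · rw [mul_comm c]; exact mul_le_mul_of_nonneg_left (mc x (by linarith)) N1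
  obtain ⟨A, a1, a2, a3⟩ := key
  have q0 : E * R ^ (-γ') = R ^ (-(γ' / 2)) := by rw [hE, ← Real.rpow_add R0]; congr 1; ring
  have q1 : R ^ (-γ') ≤ R ^ (-(γ' / 2)) := Real.rpow_le_rpow_of_exponent_le (by linarith) (by linarith)
  have q2 : R ^ (-(γ' / 2)) ≤ 1 := Real.rpow_le_one_of_one_le_of_nonpos (by linarith) (by linarith)
  have q3 : 0 ≤ R ^ (-γ') := by positivity
  have pQ : ∀ s : ℝ, R / 2 ≤ s → E * (3 / 2 / s) ^ γ' ≤ 3 * R ^ (-(γ' / 2)) := fun s hs => by
    have s0 : 0 < s := by linarith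
    have := rp_pos (a := 3 / 2 / s) (t := R⁻¹) (c := 3) (by positivity) (by positivity) (by
      rw [← div_eq_mul_inv, div_le_div_iff₀ s0 R0]; linarith) (by norm_num) h0.le (by linarith)
    rw [Real.inv_rpow R0.le, ← Real.rpow_neg R0.le] at this
    rw [← q0]; nlinarith
  have pb : ∀ s : ℝ, R / 2 ≤ s → s ≤ b → Cn * prof (3 / 2) b γ' (c * N') (2 * N' * E) s ≤ K * N' :=
    fun s s1 s2 => by
      have u1 : (s / b) ^ γ' ≤ 1 := Real.rpow_le_one (div_nonneg (by linarith) b0.le) ((div_le_one b0).2 s2) h0.le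
      rw [hK, mul_assoc Cn, prof]
      refine mul_le_mul_of_nonneg_left ?_ c3.le
      nlinarith [mul_le_mul_of_nonneg_left u1 (mul_nonneg (by linarith : 0 ≤ c) N1),
        mul_le_mul_of_nonneg_left ((pQ s s1).trans (by linarith : _ ≤ (3 : ℝ))) N1,
        mul_nonneg (mul_nonneg (by linarith : 0 ≤ c) (by linarith : 0 ≤ c)) N1,
        mul_le_mul_of_nonneg_right c4 N1]
  have A1 : ‖A‖ ≤ K * N' := a2.trans (pb b (by linarith) le_rfl)
  have z1 : 0 ≤ Ce * N' := by positivity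
  have z2 : 0 ≤ Ce * (K * N') := by positivity
  have z3 : 0 ≤ Ce * (K * N' * vb) := by positivity
  have z4 : 0 ≤ c * N' := by positivity
  have z5 : 0 ≤ K * N' := by positivity
  have pn := fun s (hs : 0 ≤ s) => mul_nonneg c3.le
    (prof_nonneg (a := 3 / 2) (b := b) (g := γ') (P := c * N') (Q := 2 * N' * E) (r := s)
      (by norm_num) b0.le z4 (by positivity) hs)
  refine ⟨A, R, a1, by nlinarith, by linarith, fun _ => ⟨by rw [R2]; nlinarith, R2.ge⟩,
    fun x hx b2 => ?_, fun x b2 b3 => ?_⟩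
  · rcases le_total ‖x‖ (4 / 5 * b) with b3 | b3
    · have k := lb_of_lin h hS.sec hx z5 ((a3 x (by linarith) b3).amono (pn _ (norm_nonneg _))
        (pb _ (by linarith) (by linarith)))
      refine (ce1 _ x hx _ (by positivity) k).amono ?_
      have k3 : N * kap T γ' L (Sum.inr w) x ≤ N' * 2 :=
        mul_le_mul hN (wt_le_two h h0.le hx) (kap_nonneg _ _ _) N1
      nlinarith [mul_le_mul_of_nonneg_left k3 c2.le,
        mul_le_mul_of_nonneg_left A1 (mul_nonneg c2.le hv)]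
    · refine (hq x hx).amono ?_
      nlinarith [mul_le_mul_of_nonneg_left (mc x b3) N1]
  · have hx := mem x (by linarith) (by linarith)
    have x0 : 0 < ‖x‖ := by linarith
    have u1 : (‖x‖ / b) ^ γ' ≤ c * R ^ (-γ') := by
      have := rp_pos (a := ‖x‖ / b) (t := R⁻¹) (c := c) (by positivity) (by positivity) (by
        rw [← div_eq_mul_inv, div_le_div_iff₀ b0 R0]; nlinarith) (by linarith) h0.le (by linarith)
      rwa [Real.inv_rpow R0.le, ← Real.rpow_neg R0.le] at this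
    have u2 : Cn * prof (3 / 2) b γ' (c * N') (2 * N' * E) ‖x‖ ≤ K * N' * R ^ (-(γ' / 2)) := by
      rw [hK, mul_assoc Cn, mul_assoc Cn, prof]
      refine mul_le_mul_of_nonneg_left ?_ c3.le
      have u3 := u1.trans (mul_le_mul_of_nonneg_left q1 (by linarith))
      have u4 : 0 ≤ N' * R ^ (-(γ' / 2)) := by positivity
      nlinarith [mul_le_mul_of_nonneg_left u3 z4,
        mul_le_mul_of_nonneg_left (pQ ‖x‖ (by linarith)) N1,
        mul_nonneg (mul_nonneg (by linarith : 0 ≤ c) (by linarith : 0 ≤ c)) u4,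
        mul_le_mul_of_nonneg_right c4 u4]
    have u5 : T.wt γ' L w x ≤ 3 * R ^ (-(γ' / 2)) := by
      have u6 : ‖x‖ ^ (-γ') ≤ R ^ (-γ') := Real.rpow_le_rpow_of_nonpos R0 b2 (by linarith)
      have := rp_pos (a := Real.exp (-L w) * ‖x‖) (t := R⁻¹) (c := 2) (by positivity)
        (by positivity) (by
          rw [R3, inv_mul_le_iff₀ (by positivity)]; field_simp; linarith) one_le_two h0.le
        (by linarith)
      rw [Real.inv_rpow R0.le, ← Real.rpow_neg R0.le] at this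
      simp only [wt, if_neg hw]
      linarith
    refine ((ce2 w x hx A _ (by positivity) ((a3 x (by linarith) (by linarith)).amono
      (pn _ x0.le) u2)).aof_le (by norm_num)).amono ?_
    have u7 : (N + ‖A‖) * T.wt γ' L w x ≤ (N' + K * N') * (3 * R ^ (-(γ' / 2))) :=
      mul_le_mul (add_le_add hN A1) u5 (wt_nonneg _ _ _) (by positivity)
    have u8 : 0 ≤ R ^ (-(γ' / 2)) := by positivity
    nlinarith [mul_le_mul_of_nonneg_left u7 c2.le, mul_nonneg z3 u8, mul_nonneg z4 u8,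
      mul_nonneg z5 u8, mul_nonneg z2 u8]

end Crest.Agent.N207.M.As

end
end

-- ▼ part N207/M/As3
section

/-!
# Row 207, X3 (helper50): assembly, part 3 (the root end, the second derivatives, `X3`)
-/

set_option autoImplicit false

open scoped ContDiff ENNReal
open Metric Set Filter Topology MeasureTheory
open Crest.GeometryTopology.CoordMetric
open Crest.Agent.NLib.Ell Crest.Agent.N207.I Crest.Agent.N207.I.TD Crest.Agent.N207.CB
  Crest.Agent.N207.N Crest.Agent.N207.Ga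

noncomputable section

namespace Crest.Agent.N207.M

namespace As

variable {M : Type*} {T : TD M} {L : T.V → ℝ} {γ γ' Λ : ℝ} {C : ℕ → ℝ} {H : Fam T}
  {F om : T.S → Tn 4 1} {N : ℝ}

/-- decay of the cell norms at the root end -/
def Far (T : TD M) (L : T.V → ℝ) (om : T.S → Tn 4 1) : Prop :=
  ∃ E1 R1 : ℝ, 0 ≤ E1 ∧ 0 ≤ R1 ∧
    ∀ x0 : E4, R1 ≤ ‖x0‖ → QC 4 (E1 / ‖x0‖ ^ 2) (clX T L om (Sum.inr T.root) x0)

theorem far (m1 : M1) (cel : CEL T) (fl : FL T) (hγ : 0 < γ) (h2 : γ ≤ 1) (hΛ : 2 ≤ Λ)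
    (hL : T.Long L) (hH : Cls T γ C Λ L H) (hS : Sol T γ' L H F om N) {R' : ℝ}
    (h0 : ∀ x : E4, R' ≤ ‖x‖ → F (Sum.inr T.root) x = 0) (hE : N207.N.En T L (rt T L H) om < ⊤) :
    Far T L om := by
  obtain ⟨K, k1, cel⟩ := cel γ C Λ hγ h2 hΛ
  obtain ⟨Cm, c1, m1⟩ := m1 2 K (by linarith)
  obtain ⟨E0, e0, fl⟩ := fl γ C Λ L H om hL hH hS.sec hE
  refine ⟨Cm * E0, max 8 (2 * |R'|), by positivity, by positivity, fun x0 hx j => ?_⟩
  have x1 : 8 ≤ ‖x0‖ := (le_max_left _ _).trans hx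
  have x2 : 2 * |R'| ≤ ‖x0‖ := (le_max_right _ _).trans hx
  obtain ⟨a1, a2, a3, a4, -, a6⟩ := cel L H hL hH (Sum.inr T.root) x0
    ⟨by linarith, fun e => absurd rfl e⟩
  have := m1 _ _ 0 _ le_rfl (by positivity) a2 (Ce.sm_clX hS.sec a1) a3 a4
    (fun j => CKA.zero.congr isOpen_ball fun y hy => ?_) (fl x0 x1) j
  · rwa [zero_add, ← mul_div_assoc] at this
  · have e : ‖rad T (Sum.inr T.root) x0 • y‖ ≤ ‖x0‖ / 4 := by
      rw [norm_smul, show rad T (Sum.inr T.root) x0 = ‖x0‖ / 8 from rfl,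
        Real.norm_of_nonneg (by positivity)]
      nlinarith [mem_ball_zero_iff.1 hy]
    have e2 := norm_sub_norm_le x0 (-(rad T (Sum.inr T.root) x0 • y))
    rw [sub_neg_eq_add, norm_neg] at e2
    rw [a6 om y hy]
    simp only [clY]
    rw [hS.eq _ _ (a1 y hy), h0 _ (by unfold pt; linarith [le_abs_self R', abs_nonneg R'])]
    simp

theorem Far.tendsto (h : T.Ok) (hf : Far T L om) :
    Tendsto (om (Sum.inr T.root)) (cocompact E4) (𝓝 0) := by
  obtain ⟨E1, R1, e1, -, hf⟩ := hf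
  have t1 : Tendsto (fun x : E4 => ‖x‖) (cocompact E4) atTop := tendsto_norm_cocompact_atTop
  refine squeeze_zero_norm' ?_ (t1.const_div_atTop E1)
  filter_upwards [t1.eventually_ge_atTop R1, t1.eventually_gt_atTop 0] with x h1 h2
  refine (pi_norm_le_iff_of_nonneg (by positivity)).2 fun I => ?_
  have := (hf x h1 (I 0)).bdd (mem_ball_self one_pos)
  have e : (![I 0] : Fin 1 → Fin 4) = I := by funext i; fin_cases i; rfl
  simp only [clX, pt_zero, e, TD.un, Sum.elim_inr, id, h.eps_root, one_pow, one_mul, rad,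
    Pi.smul_apply, smul_eq_mul, norm_mul, norm_inv] at this
  rw [Real.norm_of_nonneg (by positivity), inv_mul_le_iff₀ (by positivity)] at this
  refine this.trans ?_
  rw [show ‖x‖ / 8 * (E1 / ‖x‖ ^ 2) = E1 / ‖x‖ / 8 by field_simp]
  exact div_le_self (by positivity) (by norm_num)

theorem Far.pv (hf : Far T L om) (h0 : 0 ≤ γ') (h1 : γ' ≤ 1) (hN : 0 < N) :
    PV T γ' L om N T.root := by
  obtain ⟨E1, R1, e1, r1, hf⟩ := hf
  have e2 : 0 ≤ E1 / N := by positivity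
  set R := 16 + 2 * R1 + 2 * (E1 / N) with hR
  have R0 : 0 < R := by linarith
  have key : ∀ x : E4, 4 / 5 * R ≤ ‖x‖ →
      QC 4 (N * R ^ (-(γ' / 2))) (clX T L om (Sum.inr T.root) x) := fun x hx => by
    refine (hf x (by linarith)).amono ?_
    have p1 : R⁻¹ ≤ R ^ (-(γ' / 2)) := by
      rw [← Real.rpow_neg_one]; exact Real.rpow_le_rpow_of_exponent_le (by linarith) (by linarith)
    refine le_trans ?_ (mul_le_mul_of_nonneg_left p1 hN.le)
    have x0 : 0 < ‖x‖ := by linarith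
    rw [← div_eq_mul_inv, div_le_div_iff₀ (by positivity) R0]
    have p2 : 2 * E1 ≤ N * R := by
      have : N * (E1 / N) = E1 := by field_simp
      rw [hR]; nlinarith
    have p3 : R ^ 2 ≤ 2 * ‖x‖ ^ 2 := by nlinarith
    nlinarith [mul_le_mul_of_nonneg_left p3 hN.le, mul_le_mul_of_nonneg_right p2 R0.le]
  refine ⟨0, R, fun g _ x => by simp, by simpa using hN.le, by linarith, fun e => absurd rfl e,
    fun x _ hx => (key x hx).amono (mul_le_of_le_one_right hN.le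
      (Real.rpow_le_one_of_one_le_of_nonpos (by linarith) (by linarith))), fun x hx _ => ?_⟩
  rw [lin_zero, sub_zero]
  exact (key x (by linarith)).aof_le (by norm_num)

theorem x1_of {κ N1 N2 : ℝ} {o : Tn 4 1} {A : E4 →L[ℝ] E4} {x0 : E4} (hx : x0 ≠ 0)
    (h1 : QC 4 N1 o) (h2 : QC 4 N2 (o - lin A x0)) {K : ℝ} (e1 : N1 ≤ K) (e2 : N2 ≤ K * κ) :
    X1 κ K o := fun j => by
  refine ⟨((h1 j).of_le (by norm_num)).mono e1, fun p q => ?_⟩
  refine ((((h2 j).pd q).pd p).mono e2).congr isOpen_ball fun y hy => ?_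
  obtain ⟨c, hc⟩ : ∃ c : ℝ, ∀ z, pderiv q (fun y => lin A x0 y ![j]) z = c :=
    ⟨_, fun z => by rw [Ce.lin_eq A hx, Ce.pd_affine]⟩
  have e : pderiv q (fun y => o y ![j]) =ᶠ[𝓝 y]
      fun z => pderiv q (fun y => (o - lin A x0) y ![j]) z + c := by
    filter_upwards [isOpen_ball.mem_nhds hy] with z hz
    have d1 := (h1 j).diffAt isOpen_ball hz
    have d2 : DifferentiableAt ℝ (fun y => lin A x0 y ![j]) z :=
      ((Ce.sm_lin A hx univ ![j]).contDiffAt univ_mem).differentiableAt (by simp)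
    rw [← hc z]
    simp only [pderiv, Pi.sub_apply, fderiv_fun_sub d1 d2, sub_apply,
      sub_add_cancel]
  rw [pd_congr p e]
  simp only [pderiv, fderiv_add_const]

set_option maxHeartbeats 1600000 in
theorem stepC (h : T.Ok) (ce : CE T) (nc : NC T) (C : ℕ → ℝ) (h0 : 0 < γ') (h1 : 2 * γ' ≤ γ)
    (h2 : γ ≤ 1) (hΛ : 2 ≤ Λ) : ∃ Cf l0 : ℝ, 1 ≤ Cf ∧
      ∀ L H F om N, Lg T l0 L → Cls T γ C Λ L H → Sol T γ' L H F om N → Far T L om →
        ∀ N', 0 < N' → N ≤ N' → (∀ s, ∀ x0 ∈ T.gK L s, QC 4 N' (clX T L om s x0)) →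
        XN T γ' L (Cf * N') om := by
  obtain ⟨Ce, l2, c2, ce⟩ := ce γ γ' C Λ h0 (by linarith) h2 hΛ
  obtain ⟨Cn, c3, nc⟩ := nc γ γ' C Λ h0 (by linarith) (by linarith) h2 hΛ
  have hr := h.r_pos
  set c := 8 / T.r with hc
  have c4 : 8 ≤ c := by rw [hc, le_div_iff₀ hr]; linarith [h.r_lt]
  have cr : c * T.r = 8 := div_mul_cancel₀ _ hr.ne'
  have z0 : 0 ≤ Ce * (1 + 4 * (Cn * c)) := by positivity
  refine ⟨c + Ce * (1 + 4 * (Cn * c)), l2, by linarith,
    fun L H F om N hL hH hS hf N' N1 hN hq s x0 hx => ?_⟩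
  have N0 := hS.nn
  have z1 : N' ≤ (c + Ce * (1 + 4 * (Cn * c))) * N' := le_mul_of_one_le_left N1.le (by linarith)
  have triv : 1 ≤ c * kap T γ' L s x0 →
      X1 (kap T γ' L s x0) ((c + Ce * (1 + 4 * (Cn * c))) * N') (clX T L om s x0) := fun e j =>
    ⟨((hq s x0 hx j).of_le (by norm_num)).mono z1, fun p q =>
      (((hq s x0 hx j).pd q).pd p).mono (by
        nlinarith [mul_le_mul_of_nonneg_left e N1.le,
          mul_nonneg (mul_nonneg z0 N1.le) (kap_nonneg (L := L) γ' s x0)])⟩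
  rcases s with a | w
  · exact triv (by show 1 ≤ c * 1; linarith)
  have x1 : 1 ≤ ‖x0‖ := le_trans (by norm_num) hx.1
  have x2 : 0 < ‖x0‖ := by linarith
  have w0 := wt_nonneg (L := L) γ' w x0
  have w1 := le_wt (L := L) γ' w x0
  have w2 : 0 < ‖x0‖ ^ (-γ') := by positivity
  rcases le_total ‖x0‖ 8 with b1 | b1
  · have := rp_neg (a := 1) x2 (c := c) (by linarith) (by linarith) h0.le (by linarith)
    rw [Real.one_rpow] at this
    exact triv (this.trans (mul_le_mul_of_nonneg_left w1 (by linarith)))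
  have src : ∀ x ∈ T.gK L (Sum.inr w), ∀ m : ℝ, m ≤ N' →
      N * T.wt γ' L w x + T.wt γ L w x * m ≤ 2 * N' * T.wt γ' L w x := fun x hx m hm => by
    have u1 := wt_mono h (show γ' ≤ γ by linarith) hx
    have u2 := wt_nonneg (L := L) γ w x
    nlinarith [mul_le_mul_of_nonneg_left hm u2, mul_le_mul_of_nonneg_left u1 N1.le,
      mul_le_mul_of_nonneg_right hN (u2.trans u1)]
  have p2 : ∀ s : ℝ, 0 < s → s ^ (-γ') ≤ (3 / 2 / s) ^ γ' ∧ (3 / 2 / s) ^ γ' ≤ 2 * s ^ (-γ') :=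
    fun s hs => by
      rw [Real.rpow_neg hs.le, ← Real.inv_rpow hs.le]
      exact ⟨Real.rpow_le_rpow (by positivity) (by rw [inv_eq_one_div]; gcongr; norm_num) h0.le,
        rp_pos (by positivity) (by positivity) (by rw [← div_eq_mul_inv]; gcongr; norm_num)
          one_le_two h0.le (by linarith)⟩
  have fin : ∀ {b P : ℝ} {A : E4 →L[ℝ] E4}, 3 ≤ b → 0 ≤ P → P ≤ 2 * N' →
      P * (‖x0‖ / b) ^ γ' + 4 * N' * ‖x0‖ ^ (-γ') ≤ 2 * c * N' * T.wt γ' L w x0 →
      ‖A‖ ≤ Cn * prof (3 / 2) b γ' P (2 * N') b →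
      LB (Cn * prof (3 / 2) b γ' P (2 * N') ‖x0‖) (clX T L om (Sum.inr w) x0 - lin A x0) →
      X1 (T.wt γ' L w x0) ((c + Ce * (1 + 4 * (Cn * c))) * N') (clX T L om (Sum.inr w) x0) := by
    intro b P A a1 a2 a3 a4 a5 a6
    have u1 : ‖A‖ ≤ Cn * (c * N') := by
      refine a5.trans (mul_le_mul_of_nonneg_left ?_ c3.le)
      have : (3 / 2 / b) ^ γ' ≤ 1 :=
        Real.rpow_le_one (by positivity) ((div_le_one (by linarith)).2 (by linarith)) h0.le
      rw [prof, div_self (by linarith), Real.one_rpow]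
      nlinarith
    have u2 : Cn * prof (3 / 2) b γ' P (2 * N') ‖x0‖ ≤ Cn * (2 * c * N' * T.wt γ' L w x0) := by
      refine mul_le_mul_of_nonneg_left (le_trans ?_ a4) c3.le
      rw [prof]; nlinarith [(p2 _ x2).2]
    refine x1_of (norm_pos_iff.1 x2) (hq _ x0 hx) ((ce L H F om N hL hH hS).2 w x0 hx A _
      (by positivity) (a6.amono (mul_nonneg c3.le (prof_nonneg (by norm_num) (by linarith) a2
        (by positivity) x2.le)) u2)) z1 ?_
    have u3 : (N + ‖A‖) * T.wt γ' L w x0 ≤ (N' + Cn * (c * N')) * T.wt γ' L w x0 := by gcongr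
    have u4 : 0 ≤ c * N' * T.wt γ' L w x0 := by positivity
    nlinarith [mul_le_mul_of_nonneg_left u3 c2.le, mul_nonneg (mul_nonneg c2.le c3.le) u4]
  by_cases hw : w = T.root
  · subst hw
    obtain ⟨E1, R1, e1, r1, hf⟩ := hf
    set P := N' * ‖x0‖ ^ (-γ') with hP
    have P0 : 0 < P := by positivity
    have P1 : P ≤ N' := mul_le_of_le_one_right N1.le
      (Real.rpow_le_one_of_one_le_of_nonpos x1 (by linarith))
    have e2 : 0 ≤ E1 / P := by positivity
    set b := 2 * ‖x0‖ + R1 + E1 / P with hb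
    obtain ⟨A, -, a2, a3⟩ := nc L H F om N hL.1 hH hS T.root b P (2 * N')
      (fun x => if ‖x‖ = b then P else N') (by linarith) (fun e => absurd rfl e) P0.le
      (by positivity) fun x hx => by
        have hx' : x ∈ T.gK L (Sum.inr T.root) := ⟨hx.1, fun e => absurd rfl e⟩
        have hm : (if ‖x‖ = b then P else N') ≤ N' := by split_ifs <;> linarith
        refine ⟨?_, (src x hx' _ hm).trans ?_, fun _ => by linarith, fun e => by rw [if_pos e]⟩
        · split_ifs with e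
          · refine (hf x (by linarith)).amono ?_
            rw [e, div_le_iff₀ (by positivity)]
            have : P * (E1 / P) = E1 := by field_simp
            nlinarith [mul_le_mul_of_nonneg_left (show E1 / P ≤ b ^ 2 by nlinarith) P0.le]
          · exact hq _ x hx'
        · have := (p2 ‖x‖ (by linarith [hx.1])).1
          have : 0 ≤ P * (‖x‖ / b) ^ γ' := by positivity
          simp only [wt, if_true, add_zero, prof]
          nlinarith
    refine fin (by linarith) P0.le (by linarith) ?_ a2 (a3 x0 b1 (by linarith))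
    have : (‖x0‖ / b) ^ γ' ≤ 1 :=
      Real.rpow_le_one (by positivity) ((div_le_one (by linarith)).2 (by linarith)) h0.le
    have u1 := mul_le_mul_of_nonneg_left w1 N1.le
    nlinarith [mul_le_mul_of_nonneg_right c4 (mul_nonneg N1.le w0)]
  · set b := 3 / 4 * T.r * Real.exp (L w) with hb
    have b2 : 12 ≤ b := by linarith [hL.1 w hw]
    have b0 : 0 < b := by linarith
    have he := Real.exp_pos (L w)
    have p1 : ∀ s : ℝ, 0 < s → (Real.exp (-L w) * s) ^ γ' ≤ (s / b) ^ γ' ∧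
        (s / b) ^ γ' ≤ c * (Real.exp (-L w) * s) ^ γ' := fun s hs => by
      rw [Real.exp_neg, ← div_eq_inv_mul]
      exact ⟨Real.rpow_le_rpow (by positivity) (div_le_div_of_nonneg_left hs.le b0
        (by nlinarith [h.r_lt])) h0.le, rp_pos (by positivity) (by positivity) (by
          rw [← mul_div_assoc, div_le_div_iff₀ b0 he, show c * s * b =
            3 / 4 * (c * T.r) * (s * Real.exp (L w)) by rw [hb]; ring, cr]
          linarith [mul_pos hs he])
          (by linarith) h0.le (by linarith)⟩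
    rcases le_total ‖x0‖ (4 / 5 * b) with b3 | b3
    · obtain ⟨A, -, a2, a3⟩ := nc L H F om N hL.1 hH hS w b (2 * N') (2 * N') (fun _ => N')
        (by linarith) (fun _ => le_rfl) (by positivity) (by positivity) fun x hx => by
          have hx' : x ∈ T.gK L (Sum.inr w) := ⟨hx.1, fun _ => hx.2⟩
          refine ⟨hq _ x hx', (src x hx' _ le_rfl).trans ?_, fun _ => by linarith,
            fun _ => by linarith⟩
          have x3 : 0 < ‖x‖ := by linarith [hx.1]
          simp only [wt, if_neg hw, prof]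
          nlinarith [(p2 _ x3).1, (p1 _ x3).1]
      refine fin (by linarith) (by positivity) le_rfl ?_ a2 (a3 x0 b1 b3)
      simp only [wt, if_neg hw]
      nlinarith [mul_le_mul_of_nonneg_left (p1 _ x2).2 N1.le,
        mul_le_mul_of_nonneg_right c4 (mul_pos N1 w2).le, mul_pos N1 w2]
    · have := rp_pos (a := 1) (t := Real.exp (-L w) * ‖x0‖) (c := c) zero_le_one (by positivity) (by
        rw [Real.exp_neg, ← div_eq_inv_mul, ← mul_div_assoc, one_le_div he]
        nlinarith) (by linarith) h0.le (by linarith)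
      rw [Real.one_rpow] at this
      refine triv (this.trans (mul_le_mul_of_nonneg_left ?_ (by linarith)))
      show _ ≤ T.wt γ' L w x0
      simp only [wt, if_neg hw]
      linarith

theorem x3_zero (h : T.Ok) (hL : T.Long L) (hF : (T.glob L).Sec F) (hY : YN T γ' L 0 F)
    (s : T.S) (x : E4) (hx : x ∈ (T.glob L).U s) : F s x = 0 := by
  obtain ⟨s', x', h1, e⟩ := exists_gK h hL hx
  refine hF.compat.eq_zero (h.glob_ok hL) hx ((h.glob_pou hL).sub s' h1) e.symm ?_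
  funext I
  have := (hY s' x' h1 (I 0)).bdd (mem_ball_self one_pos)
  have e : (![I 0] : Fin 1 → Fin 4) = I := by funext i; fin_cases i; rfl
  have r : rad T s' x' ≠ 0 := by
    rcases s' with a | w
    · show (1 / 8 : ℝ) ≠ 0; norm_num
    · have : 3 / 2 ≤ ‖x'‖ := h1.1
      show ‖x'‖ / 8 ≠ 0; positivity
  simp only [clY, pt_zero, e, zero_mul, Pi.smul_apply, smul_eq_mul, norm_le_zero_iff] at this
  exact (mul_eq_zero.1 this).resolve_left r

end As

variable {M : Type*} {T : TD M}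

open As in
theorem x3_of (h : T.Ok) {g : T.V → Fam T} {γ γ' : ℝ} (m1 : M1) (cel : CEL T) (gbc : GBC T g γ)
    (lex : LEX T) (we : WE T) (cx : CX T) (fl : FL T) (rb : RB T) (ce : CE T) (nc : NC T)
    (ct : CT T) (h0 : 0 < γ') (h1 : 2 * γ' ≤ γ) (h2 : γ ≤ 1) : X3 T g γ' := by
  obtain ⟨C, Λ, T1, hΛ, gbc⟩ := gbc
  obtain ⟨Ca, la, ca, sA⟩ := stepA h we cx rb ce ct C h0 h1 h2 hΛ
  obtain ⟨Cb, lb, cb, sB⟩ := stepB h ce nc C h0 h1 h2 hΛ
  obtain ⟨Cf, lf, cf, sC⟩ := stepC h ce nc C h0 h1 h2 hΛ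
  have cab : 1 ≤ Cb * Ca := one_le_mul_of_one_le_of_one_le cb ca
  set D := Finset.univ.sup T.dep with hD
  have cK : 1 ≤ Ca * (Cb * Ca) ^ D := one_le_mul_of_one_le_of_one_le ca (one_le_pow₀ cab)
  refine ⟨Cf * (Ca * (Cb * Ca) ^ D), T1, by positivity, fun T0 hT => ?_⟩
  obtain ⟨l0, gbc⟩ := gbc T0 hT
  refine ⟨max l0 (max la (max lb lf)), fun L hL F N R' hN hF hY hR => ?_⟩
  have hH := gbc L (lg_mono hL (le_max_left _ _))
  have hA : Lg T la L := lg_mono hL (by simp)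
  have hB : Lg T lb L := lg_mono hL (by simp)
  have hC : Lg T lf L := lg_mono hL (by simp)
  rcases hN.eq_or_lt with rfl | N0
  · refine ⟨0, Atl.Sec.zero, fun s x hx => ?_, fun s x0 _ j => ?_, tendsto_const_nhds⟩
    · rw [x3_zero h hL.1 hF hY s x hx, Pi.zero_apply, lapT_zero']; rfl
    · simp only [clX, Pi.zero_apply, smul_zero, mul_zero, zero_mul]
      refine ⟨CKA.zero, fun p q => CKA.zero.congr isOpen_ball fun y _ => ?_⟩
      rw [show pderiv q (fun _ : E4 => (0 : ℝ)) = fun _ => 0 from funext fun _ => pd_const _ 0,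
        pd_const]
  obtain ⟨om, o1, o2, o3⟩ := lex γ C Λ L _ hΛ hL.1 hH F R' hF hR
  have hS : Sol T γ' L (gbL T g T0 L) F om N := ⟨hN, hF, hY, o1, o2⟩
  have hf := far m1 cel fl (by linarith) h2 hΛ hL.1 hH hS hR o3
  have hle : ∀ n : ℕ, N ≤ (Cb * Ca) ^ n * N := fun n => le_mul_of_one_le_left hN (one_le_pow₀ cab)
  have pv : ∀ v, PV T γ' L om ((Cb * Ca) ^ T.dep v * N) v := fun v => by
    induction v using h.ind with
    | h0 => rw [h.dep_root, pow_zero, one_mul]; exact hf.pv h0.le (by linarith) N0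
    | h1 w hw ih =>
      have := sB L _ F om N hB hH hS w _ hw ((hle _).trans (le_mul_of_one_le_left
        (hN.trans (hle _)) ca)) ((sA L _ F om N hA hH hS _ _ (hle _) ih).2 w hw rfl)
      rwa [h.dep_par w hw, pow_succ', mul_assoc, mul_assoc]
  refine ⟨om, o1, o2, ?_, hf.tendsto h⟩
  rw [mul_assoc]
  refine sC L _ F om N hC hH hS hf _ (by positivity) (le_mul_of_one_le_left hN cK) fun s x0 hx =>
    ((sA L _ F om N hA hH hS _ _ (hle _) (pv _)).1 s rfl x0 hx).amono ?_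
  rw [mul_assoc]
  gcongr
  exact Finset.le_sup (f := T.dep) (Finset.mem_univ _)

end Crest.Agent.N207.M

end
end

-- ▼ part N207/M/Ct1
section

/-!
# Row 207, X3 (helper83): kit for `CT` and `NC` (Laplacians, cut-offs and linear fields in a cell)
-/

set_option autoImplicit false

open scoped ContDiff RealInnerProductSpace
open Metric Set Filter Topology
open Crest.GeometryTopology.CoordMetric
open Crest.Agent.NLib.Ell Crest.Agent.N207.I Crest.Agent.N207.CB Crest.Agent.N207.N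
  Crest.Agent.N207.Ga
open Crest.Agent.R238 (Ell)

noncomputable section

namespace Crest.Agent.N207.M

namespace Ct

theorem lap_sub {k : ℕ} {G : MetricField 4} {U : Set E4} {S T : Tn 4 k} {y : E4}
    (hG : IsRiemannianOn G U) (hS : SmT S U) (hT : SmT T U) (hy : y ∈ U) :
    lapT G (S - T) y = lapT G S y - lapT G T y := by
  have h1 : cov G (S - T) =ᶠ[𝓝 y] cov G S - cov G T :=
    ev_of_on hG.isOpen hy fun z hz => cov_sub (hS.dAt hG.isOpen hz) (hT.dAt hG.isOpen hz)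
  have h2 : cov G (cov G (S - T)) y = cov G (cov G S) y - cov G (cov G T) y := by
    rw [(cov_congr EventuallyEq.rfl h1).eq_of_nhds]
    exact cov_sub ((hS.cov hG).dAt hG.isOpen hy) ((hT.cov hG).dAt hG.isOpen hy)
  funext I
  simp only [lapT, trT, h2, Pi.sub_apply, mul_sub, Finset.sum_sub_distrib]

theorem lap_zero {k : ℕ} (G : MetricField 4) : lapT G (0 : Tn 4 k) = 0 := by
  funext y I
  simp [lapT, cov_zero, trT]

theorem lap0_congr {f g : E4 → ℝ} {y : E4} (h : f =ᶠ[𝓝 y] g) : lap0 f y = lap0 g y :=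
  Finset.sum_congr rfl fun i _ => pd_congr i (pd_congr_ev i h)

theorem lap0_cka {U : Set E4} (hU : IsOpen U) {k : ℕ} {f : E4 → ℝ} {N : ℝ}
    (h : CKA (1 / 2) U (k + 2) N f) : CKA (1 / 2) U k (4 * N) (lap0 f) := by
  have h1 := CKA.sum_le hU fun i : Fin 4 => (h.pd i).pd i
  rw [Fintype.card_fin] at h1
  exact_mod_cast h1

theorem zero_B1 : (0 : E4) ∈ B1 := mem_ball_self one_pos

theorem zero_BB : (0 : E4) ∈ BB := mem_ball_self two_pos

theorem B1_sub : B1 ⊆ BB := ball_subset_ball one_le_two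

theorem lap0_le {f : E4 → ℝ} {N : ℝ} (h : CKA (1 / 2) B1 2 N f) : |lap0 f 0| ≤ 4 * N :=
  (lap0_cka (k := 0) isOpen_ball h).bdd zero_B1


/-- radial functions in the cells -/
theorem exists_cut {Φ : ℝ → ℝ} (hΦ : ContDiff ℝ ∞ Φ) (B : ℝ) (k : ℕ) : ∃ C, 0 ≤ C ∧
    ∀ (x : E4) (R : ℝ), 0 < ‖x‖ → 0 < R → ‖x‖ ≤ B * R →
      CKA (1 / 2) B1 k C fun y => Φ (‖x + (‖x‖ / 8) • y‖ / R) := by
  obtain ⟨M0, h0, hM⟩ := Cu.exists_cka_unit (Φ := fun x : E4 => ‖x‖)
    (fun x hx => (contDiffAt_norm ℝ hx).contDiffWithinAt) k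
  obtain ⟨C, hC⟩ := Crest.Agent.NLib.Ell.comp 4 k (1 / 2) (B * M0) (by norm_num)
    (by norm_num) ℝ ℝ Φ univ (closedBall 0 (B * M0)) isOpen_univ
    (isCompact_closedBall _ _) (subset_univ _) hΦ.contDiffOn
  refine ⟨max C 0, le_max_right _ _, fun x R hx hR hB => ?_⟩
  have h1 : CKA (1 / 2) B1 k (B * M0) fun y => ‖x‖ / R * ‖‖x‖⁻¹ • x + (1 / 8 : ℝ) • y‖ := by
    refine ((hM _ (Cu.norm_unit hx)).const_mul isOpen_ball _).mono
      (mul_le_mul_of_nonneg_right ?_ h0)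
    rw [abs_of_nonneg (by positivity), div_le_iff₀ hR]
    exact hB
  refine ((hC B1 _ isOpen_ball (fun y hy => mem_closedBall_zero_iff.2 (h1.bdd hy)) h1).mono
    (le_max_left _ _)).congr isOpen_ball fun y _ => ?_
  rw [Cu.cell_eq hx, norm_smul, norm_norm]
  congr 1
  ring

theorem lin_eq (A : E4 →L[ℝ] E4) {x : E4} (hx : 0 < ‖x‖) (y : E4) (I : Fin 1 → Fin 4) :
    lin A x y I = 8 * A (‖x‖⁻¹ • x + (1 / 8 : ℝ) • y) (I 0) := by
  rw [lin, Cu.cell_eq hx, map_smul, PiLp.smul_apply, smul_eq_mul]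
  field_simp

theorem norm_proj_comp (A : E4 →L[ℝ] E4) (j : Fin 4) :
    ‖(EuclideanSpace.proj j : E4 →L[ℝ] ℝ).comp A‖ ≤ ‖A‖ :=
  ContinuousLinearMap.opNorm_le_bound _ (norm_nonneg _) fun v =>
    (PiLp.norm_apply_le (A v) j).trans (A.le_opNorm v)

/-- the linear fields in the cells -/
theorem exists_lin (k : ℕ) : ∃ C, 0 ≤ C ∧ ∀ (A : E4 →L[ℝ] E4) (x : E4), 0 < ‖x‖ →
    QC k (C * ‖A‖) (lin A x) := by
  obtain ⟨M0, h0, hM⟩ := Cu.exists_cka_unit (Φ := fun x : E4 => x) contDiffOn_id k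
  refine ⟨8 * M0, by positivity, fun A x hx j => ?_⟩
  refine (((((hM _ (Cu.norm_unit hx)).clm isOpen_ball _ (norm_proj_comp A j)).const_mul
    isOpen_ball 8).mono (le_of_eq ?_)).congr isOpen_ball fun y _ => lin_eq A hx y _)
  rw [abs_of_pos (by norm_num)]
  ring

theorem lin_sm (A : E4 →L[ℝ] E4) (x : E4) (U : Set E4) : SmT (lin A x) U := fun I =>
  (contDiff_const.mul (((EuclideanSpace.proj (I 0) : E4 →L[ℝ] ℝ).comp A).contDiff.comp
    (contDiff_const.add (contDiff_id.const_smul _)))).contDiffOn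

theorem pd_lin (A : E4 →L[ℝ] E4) {x : E4} (hx : 0 < ‖x‖) (i j : Fin 4) :
    pderiv i (fun y => lin A x y ![j]) = fun _ => A (EuclideanSpace.single i 1) j := by
  funext y
  have h : HasFDerivAt (fun y : E4 => lin A x y ![j])
      ((EuclideanSpace.proj j : E4 →L[ℝ] ℝ).comp A) y := by
    have e : (fun y : E4 => lin A x y ![j]) = fun y => 8 * A (‖x‖⁻¹ • x) j +
        ((EuclideanSpace.proj j : E4 →L[ℝ] ℝ).comp A) y := by
      funext z
      rw [lin_eq A hx, map_add, map_smul]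
      simp
      ring
    rw [e]
    exact (ContinuousLinearMap.hasFDerivAt _).const_add _
  rw [pderiv, h.fderiv]
  rfl

theorem lap0_lin (A : E4 →L[ℝ] E4) {x : E4} (hx : 0 < ‖x‖) (j : Fin 4) (y : E4) :
    lap0 (fun y => lin A x y ![j]) y = 0 := by
  simp only [lap0, pd_lin A hx, pd_const, Finset.sum_const_zero]

theorem norm_BB {x y : E4} (hy : y ∈ BB) :
    3 / 4 * ‖x‖ ≤ ‖x + (‖x‖ / 8) • y‖ ∧ ‖x + (‖x‖ / 8) • y‖ ≤ 5 / 4 * ‖x‖ := by
  have h1 : ‖(‖x‖ / 8) • y‖ ≤ ‖x‖ / 4 := by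
    rw [norm_smul, Real.norm_of_nonneg (by positivity)]
    nlinarith [mem_ball_zero_iff.1 hy, norm_nonneg x]
  have h2 := norm_add_le x ((‖x‖ / 8) • y)
  have h3 := norm_sub_le (x + (‖x‖ / 8) • y) ((‖x‖ / 8) • y)
  rw [add_sub_cancel_right] at h3
  constructor <;> linarith

theorem lin_le (A : E4 →L[ℝ] E4) {x y : E4} (hx : 0 < ‖x‖) (hy : y ∈ BB) (I : Fin 1 → Fin 4) :
    |lin A x y I| ≤ 10 * ‖A‖ := by
  have h1 : |A (x + (‖x‖ / 8) • y) (I 0)| ≤ ‖A‖ * (5 / 4 * ‖x‖) :=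
    ((PiLp.norm_apply_le _ _).trans (A.le_opNorm _)).trans
      (mul_le_mul_of_nonneg_left (norm_BB hy).2 (norm_nonneg _))
  rw [lin, abs_mul, abs_of_pos (by positivity), inv_mul_le_iff₀ (by positivity)]
  linarith

/-- equivariant vector fields as invariant 1-forms -/
theorem pull_iso (γ : Iso4) (Z : Tn 4 1) (x : E4) (I : Fin 1 → Fin 4) :
    pullT γ Z x I = γ.symm (WithLp.toLp 2 fun j => Z (γ x) ![j]) (I 0) := by
  have hf : fderiv ℝ γ x = (γ.toContinuousLinearEquiv : E4 →L[ℝ] E4) :=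
    γ.toContinuousLinearEquiv.hasFDerivAt.fderiv
  have e : ∀ v : E4, γ.symm v (I 0) = ⟪γ (EuclideanSpace.single (I 0) 1), v⟫ := fun v => by
    rw [← γ.symm.inner_map_map, γ.symm_apply_apply, EuclideanSpace.inner_single_left]; simp
  rw [pullT, AI.evT_one, hf, e, PiLp.inner_apply]
  exact Finset.sum_congr rfl fun j _ => by simp [mul_comm]

variable {M : Type*} {T : TD M} {L : T.V → ℝ}

theorem pt_inr (w : T.V) (x y : E4) : pt T (Sum.inr w) x y = x + (‖x‖ / 8) • y := rfl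

theorem pt_zero (s : T.S) (x : E4) : pt T s x 0 = x := by simp [pt]

theorem clX_sm {om : T.S → Tn 4 1} {s : T.S} {x : E4} {U : Set E4}
    (h : SmT (om s) ((T.glob L).U s)) (hU : ∀ y ∈ U, pt T s x y ∈ (T.glob L).U s) :
    SmT (clX T L om s x) U := fun I =>
  contDiffOn_const.mul ((h I).comp (contDiff_const.add (contDiff_id.const_smul _)).contDiffOn hU)

theorem wt_bd (h : T.Ok) {γ : ℝ} (hγ : 0 ≤ γ) {w : T.V} {x : E4}
    (hx : x ∈ (T.glob L).U (Sum.inr w)) : 0 < T.wt γ L w x ∧ T.wt γ L w x ≤ 2 := by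
  have h0 : 0 < ‖x‖ := zero_lt_one.trans hx.1
  have h1 : ‖x‖ ^ (-γ) ≤ 1 := Real.rpow_le_one_of_one_le_of_nonpos hx.1.le (by linarith)
  have h2 : 0 < ‖x‖ ^ (-γ) := Real.rpow_pos_of_pos h0 _
  unfold TD.wt
  split_ifs with hw
  · constructor <;> linarith
  · have h3 : Real.exp (-L w) * ‖x‖ ≤ 1 := by
      rw [Real.exp_neg, inv_mul_le_iff₀ (Real.exp_pos _)]
      nlinarith [hx.2 hw, h.r_lt, Real.exp_pos (L w)]
    have h4 : (Real.exp (-L w) * ‖x‖) ^ γ ≤ 1 := Real.rpow_le_one (by positivity) h3 hγ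
    have h5 : 0 ≤ (Real.exp (-L w) * ‖x‖) ^ γ := by positivity
    constructor <;> linarith

theorem wt_lo {γ : ℝ} (hγ1 : γ ≤ 1) {w : T.V} {x : E4} (h1 : 1 ≤ ‖x‖) :
    1 ≤ ‖x‖ * T.wt γ L w x := by
  have h0 : 0 < ‖x‖ := zero_lt_one.trans_le h1
  have h2 : ‖x‖ ^ (-1 : ℝ) ≤ ‖x‖ ^ (-γ) := Real.rpow_le_rpow_of_exponent_le h1 (by linarith)
  have h3 : ‖x‖ ^ (-γ) ≤ T.wt γ L w x := by
    unfold TD.wt
    split_ifs
    · linarith
    · exact le_add_of_nonneg_right (by positivity)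
  rw [Real.rpow_neg_one] at h2
  calc (1 : ℝ) = ‖x‖ * ‖x‖⁻¹ := (mul_inv_cancel₀ h0.ne').symm
    _ ≤ _ := mul_le_mul_of_nonneg_left (h2.trans h3) h0.le

theorem dsc_self (v : T.V) : Dsc T v v := ⟨le_rfl, by simp⟩

theorem dsc_par (h : T.Ok) {v u : T.V} (h1 : u ≠ v) (h2 : u ≠ T.root) :
    Dsc T v u ↔ Dsc T v (T.par u) := by
  have e := h.dep_par u h2
  constructor
  · rintro ⟨a, b⟩
    have c : T.dep v ≠ T.dep u := fun c => h1 (by simpa [c] using b)
    refine ⟨by omega, ?_⟩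
    rwa [show T.dep u - T.dep v = T.dep (T.par u) - T.dep v + 1 by omega,
      Function.iterate_succ_apply] at b
  · rintro ⟨a, b⟩
    refine ⟨by omega, ?_⟩
    rwa [show T.dep u - T.dep v = T.dep (T.par u) - T.dep v + 1 by omega,
      Function.iterate_succ_apply]

theorem not_dsc_par (h : T.Ok) {v : T.V} (hv : v ≠ T.root) : ¬ Dsc T v (T.par v) := fun a => by
  have := h.dep_par v hv
  have := a.1
  omega

theorem not_dsc_root (h : T.Ok) {v : T.V} (hv : v ≠ T.root) : ¬ Dsc T v T.root := fun a => by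
  have := h.dep_par v hv
  have := a.1
  have := h.dep_root
  omega

end Ct

end Crest.Agent.N207.M

end
end

-- ▼ part N207/M/Ct
section

/-!
# Row 207, X3 (helper83): `ct : CT T`
-/

set_option autoImplicit false

open scoped ContDiff
open Metric Set Filter Topology
open Crest.GeometryTopology.CoordMetric
open Crest.Agent.NLib.Ell Crest.Agent.N207.I Crest.Agent.N207.CB Crest.Agent.N207.N
  Crest.Agent.N207.Ga
open Crest.Agent.R238 (Ell)

noncomputable section

namespace Crest.Agent.N207.M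

namespace Ct

/-- `1` on `t ≤ 1`, `0` on `2 ≤ t` -/
def ps (t : ℝ) : ℝ := 1 - Real.smoothTransition (t - 1)

theorem ps_sm : ContDiff ℝ ∞ ps :=
  contDiff_const.sub (Real.smoothTransition.contDiff.comp (contDiff_id.sub contDiff_const))

theorem ps_one {s R : ℝ} (hR : 0 < R) (h : s ≤ R) : ps (s / R) = 1 := by
  rw [ps, Real.smoothTransition.zero_of_nonpos (by linarith [(div_le_one hR).2 h]), sub_zero]

theorem ps_zero {s R : ℝ} (hR : 0 < R) (h : 2 * R ≤ s) : ps (s / R) = 0 := by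
  rw [ps, Real.smoothTransition.one_of_one_le (by linarith [(le_div_iff₀ hR).2 h]), sub_self]

theorem ps_abs (t : ℝ) : |1 - ps t| ≤ 1 := by
  rw [ps, sub_sub_cancel, abs_of_nonneg (Real.smoothTransition.nonneg _)]
  exact Real.smoothTransition.le_one _

variable {M : Type*} {T : TD M} {L : T.V → ℝ}

/-- the linear part, cut at both ends -/
def cz (e R : ℝ) (A : E4 →L[ℝ] E4) : Tn 4 1 := fun x I =>
  ps (‖x‖ / R) * (e * ((1 - ps (‖x‖ / 4)) * A x (I 0)))

open Classical in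
/-- the cut field -/
def cv (T : TD M) (L : T.V → ℝ) (om : T.S → Tn 4 1) (v : T.V) (A : E4 →L[ℝ] E4) (R : ℝ) :
    T.S → Tn 4 1 :=
  (fun s => smT (radF T (fun u => if Dsc T v u then 1 else 0)
    (fun u t => if u = v then ps (t / R) else if Dsc T v u then 1 else 0) s) (om s)) -
    nkT T v (cz (T.eps L v ^ 2) R A)

variable {om : T.S → Tn 4 1} {v : T.V} {A : E4 →L[ℝ] E4} {R : ℝ}

theorem cv_sec (h : T.Ok) (hL : T.Long L) (ho : (T.glob L).Sec om)
    (hA : ∀ g ∈ T.Γ v, ∀ x, A (g x) = g (A x)) (hR : 16 ≤ R)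
    (hv : v ≠ T.root → 2 * R ≤ T.r / 4 * Real.exp (L v)) : (T.glob L).Sec (cv T L om v A R) := by
  have hR0 : 0 < R := by linarith
  refine (ho.smT (radF_comp (fun w s hs => ?_) fun w hw s hs => ?_) (radF_sm fun w => ?_)).sub
    (nkT_sec h hL (fun I x hx => ?_) (fun x hx => ?_) (fun hw x hx => ?_) fun γ hγ x _ => ?_)
  · by_cases e : w = v
    · simp only [e, if_true, dsc_self, ps_one hR0 (show s ≤ R by linarith)]
    · simp only [if_neg e]
  · by_cases e : w = v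
    · subst e
      simp only [if_true, if_neg (not_dsc_par h hw), ps_zero hR0 ((hv hw).trans hs.le)]
    · rw [if_neg e, propext (dsc_par h e hw)]
  · by_cases e : w = v
    · simp only [e, if_true]
      exact (ps_sm.comp (contDiff_id.div_const R)).contDiffOn
    · simp only [if_neg e]
      exact contDiffOn_const
  · have h0 : ContDiffAt ℝ ∞ (fun y : E4 => ‖y‖) x :=
      contDiffAt_norm ℝ (norm_pos_iff.1 (zero_lt_one.trans hx.1))
    exact ((ps_sm.contDiffAt.comp x (h0.div_const R)).mul (contDiffAt_const.mul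
      ((contDiffAt_const.sub (ps_sm.contDiffAt.comp x (h0.div_const 4))).mul
        ((EuclideanSpace.proj (I 0) : E4 →L[ℝ] ℝ).comp A).contDiff.contDiffAt))).contDiffWithinAt
  · funext I
    simp [cz, ps_one four_pos hx.le]
  · funext I
    simp [cz, ps_zero hR0 ((hv hw).trans hx.le)]
  · funext I
    have e : (WithLp.toLp 2 fun j => cz (T.eps L v ^ 2) R A (γ x) ![j] : E4) =
        (ps (‖x‖ / R) * (T.eps L v ^ 2 * (1 - ps (‖x‖ / 4)))) • γ (A x) := by
      ext j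
      simp only [cz, γ.norm_map, hA γ hγ, PiLp.smul_apply, smul_eq_mul, Matrix.cons_val_zero]
      ring
    rw [pull_iso, e, map_smul, γ.symm_apply_apply]
    simp only [cz, PiLp.smul_apply, smul_eq_mul]
    ring

theorem cv_ne {s : T.S} (hs : s ≠ Sum.inr v) :
    (Dsc T v (T.un s) → cv T L om v A R s = om s) ∧
      (¬ Dsc T v (T.un s) → cv T L om v A R s = 0) := by
  rcases s with a | w
  · constructor <;> intro hd <;> funext y I <;>
      simp only [TD.un, Sum.elim_inl] at hd <;> simp [cv, smT, radF, nkT, hd]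
  · have e : w ≠ v := fun e => hs (by rw [e])
    constructor <;> intro hd <;> funext y I <;>
      simp only [TD.un, Sum.elim_inr, id] at hd <;> simp [cv, smT, radF, nkT, hd, e]

theorem cv_eq (x : E4) (I : Fin 1 → Fin 4) : cv T L om v A R (Sum.inr v) x I = ps (‖x‖ / R) *
    (om (Sum.inr v) x I - T.eps L v ^ 2 * ((1 - ps (‖x‖ / 4)) * A x (I 0))) := by
  simp only [cv, smT, radF, nkT, cz, Pi.sub_apply, Sum.elim_inr, if_true]
  ring

theorem clX_cv {x : E4} (y : E4) (I : Fin 1 → Fin 4) :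
    clX T L (cv T L om v A R) (Sum.inr v) x y I = ps (‖x + (‖x‖ / 8) • y‖ / R) *
      (clX T L om (Sum.inr v) x y I - (1 - ps (‖x + (‖x‖ / 8) • y‖ / 4)) * lin A x y I) := by
  have := (TD.eps_pos L v).ne'
  simp only [clX, Pi.smul_apply, smul_eq_mul, cv_eq, pt_inr, lin, TD.un, Sum.elim_inr, id, rad,
    mul_inv]
  rw [mul_sub, mul_sub, mul_sub]
  congr 1
  · ring
  · field_simp

theorem ev_cell (x : E4) {S : Set ℝ} (hS : IsOpen S) (hx : ‖x‖ ∈ S) :
    ∀ᶠ y in 𝓝 (0 : E4), ‖x + (‖x‖ / 8) • y‖ ∈ S := by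
  have : Continuous fun y : E4 => ‖x + (‖x‖ / 8) • y‖ := by fun_prop
  exact this.continuousAt.preimage_mem_nhds (hS.mem_nhds (by simpa using hx))

end Ct

open Ct in
/-- **CT** -/
theorem ct {M : Type*} {T : TD M} (h : T.Ok) (hM : M2W) (hC : CEL T) : CT T := by
  intro γ C Λ hγ hγ1 hΛ
  obtain ⟨K, hK, hcel⟩ := hC γ C Λ hγ hγ1 hΛ
  obtain ⟨C2, c2, hm⟩ := hM 0 (2 * K)
  obtain ⟨C1, c1, h1⟩ := exists_cut ps_sm 2 2
  obtain ⟨C3, c3, h3⟩ := exists_cut (contDiff_const.sub ps_sm : ContDiff ℝ ∞ fun t => 1 - ps t) 4 2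
  obtain ⟨C4, c4, h4⟩ := exists_lin 2
  have hK0 : 0 < K := by linarith
  obtain ⟨D, hD⟩ : ∃ D, D = 8 * ((C3 + 1) * C4) := ⟨_, rfl⟩
  have d0 : 0 ≤ D := by rw [hD]; positivity
  refine ⟨10 + (C2 * K + 64) * D + (C2 * (2 * K) + 4) * (8 * C1), by positivity,
    fun L H om hL hH ho v A R Mo hA hR hv hq => ?_⟩
  have hR0 : 0 < R := by linarith
  have sV := cv_sec h hL ho hA hR hv
  have p1 : 0 ≤ (C2 * K + 64) * D := by positivity
  have p2 : 0 ≤ (C2 * (2 * K) + 4) * (8 * C1) := by positivity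
  refine ⟨cv T L om v A R, ⟨sV, 2 * R, fun x hx => ?_⟩, fun s hs => cv_ne hs,
    fun x0 a1 a2 y hy j => ?_, fun x hx j => ?_⟩
  · by_cases e : v = T.root
    · subst e
      funext I
      rw [cv_eq, ps_zero hR0 hx, zero_mul]
      rfl
    · rw [(cv_ne (fun e' => e (Sum.inr.inj e').symm)).2 (not_dsc_root h e)]
      rfl
  · rw [clX_cv, ps_one hR0 (by linarith [(norm_BB (x := x0) hy).2]), one_mul, sub_sub_cancel_left,
      abs_neg, abs_mul]
    have := mul_le_mul (ps_abs (‖x0 + (‖x0‖ / 8) • y‖ / 4)) (lin_le A (x := x0) (by linarith) hy ![j])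
      (abs_nonneg _) zero_le_one
    nlinarith [norm_nonneg A]
  obtain ⟨b1, b2, -, -, b5, b6⟩ := hcel L H hL hH _ x hx
  obtain ⟨b3, b4⟩ := b5 v rfl
  have hx1 : 3 / 2 ≤ ‖x‖ := hx.1
  have hx0 : 0 < ‖x‖ := by linarith
  obtain ⟨w0, w2⟩ := wt_bd h hγ.le (w := v) (x := x) (by simpa [pt_zero] using b1 0 zero_BB)
  have g1 := riemOn_mono b2 isOpen_ball B1_sub
  have key : ∀ (o : Tn 4 1) (N : ℝ), SmT o B1 → QC 2 N o →
      |lapT (clM T H (Sum.inr v) x) o 0 ![j]| ≤
        C2 * (K * T.wt γ L v x * N) + |lap0 (fun z => o z ![j]) 0| := fun o N so qo => by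
    have := (hm B1 _ o _ N (by nlinarith) g1 so
      (fun a b => ((b4 a b).subset B1_sub).of_le (by norm_num)) (fun y hy => b3 y (B1_sub hy)) qo j).bdd
      zero_B1
    rw [Real.norm_eq_abs] at this
    linarith [abs_sub_abs_le_abs_sub (lapT (clM T H (Sum.inr v) x) o 0 ![j])
      (lap0 (fun z => o z ![j]) 0)]
  have sX : SmT (clX T L om (Sum.inr v) x) B1 := clX_sm (ho.sm _) fun y hy => b1 y (B1_sub hy)
  rw [← b6 _ 0 zero_BB, ← b6 _ 0 zero_BB]
  refine ⟨fun a => ?_, fun a1 a2 => ?_, fun a => ?_⟩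
  · obtain ⟨o, ho'⟩ : ∃ o : Tn 4 1, o = fun y I =>
      (1 - ps (‖x + (‖x‖ / 8) • y‖ / 4)) * lin A x y I := ⟨_, rfl⟩
    have so : SmT o B1 := fun I y hy => by
      have n0 : x + (‖x‖ / 8) • y ≠ 0 :=
        norm_pos_iff.1 (by linarith [(Cu.norm_cell hx0 hy).1])
      have n1 : ContDiffAt ℝ ∞ (fun y : E4 => ‖x + (‖x‖ / 8) • y‖) y :=
        (contDiffAt_const.add (contDiffAt_id.const_smul _)).norm ℝ n0
      rw [ho']
      exact (contDiffAt_const.sub (ps_sm.contDiffAt.comp y (n1.div_const 4))).contDiffWithinAt.mul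
        (lin_sm A x B1 I y hy)
    have e : clX T L (cv T L om v A R) (Sum.inr v) x =ᶠ[𝓝 0] clX T L om (Sum.inr v) x - o := by
      filter_upwards [ev_cell x isOpen_Iio a] with y hy
      funext I
      rw [clX_cv, ps_one hR0 (le_of_lt hy), one_mul, ho']
      rfl
    have qo : QC 2 (D * ‖A‖) o := fun i => by
      have q1 : CKA (1 / 2) B1 2 (C3 + 1) fun y => 1 - ps (‖x + (‖x‖ / 8) • y‖ / 4) := by
        rcases le_total ‖x‖ 16 with a1 | a1
        · exact (h3 x 4 hx0 four_pos (by linarith)).mono (by linarith)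
        · refine ((CKA.const (1 : ℝ)).mono (by simp [c3])).congr isOpen_ball fun y hy => ?_
          rw [ps_zero four_pos (by linarith [(Cu.norm_cell hx0 hy).1]), sub_zero]
      rw [ho']
      exact (q1.mul isOpen_ball (h4 A x hx0 i)).mono (le_of_eq (by rw [hD]; ring))
    have l0 : |lap0 (fun z => o z ![j]) 0| ≤ 64 * D * (‖A‖ * T.wt γ L v x) := by
      rcases le_or_gt ‖x‖ 16 with a1 | a1
      · have := wt_lo (T := T) (L := L) hγ1 (w := v) (x := x) (by linarith)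
        have q2 : 0 ≤ D * ‖A‖ := by positivity
        nlinarith [lap0_le (qo j), mul_le_mul_of_nonneg_left
          (this.trans (mul_le_mul_of_nonneg_right a1 w0.le)) q2]
      · have e2 : (fun z => o z ![j]) =ᶠ[𝓝 0] fun z => lin A x z ![j] := by
          filter_upwards [ev_cell x isOpen_Ioi a1] with y hy
          rw [ho']
          simp only [ps_zero four_pos (show 2 * 4 ≤ ‖x + (‖x‖ / 8) • y‖ by
            linarith [mem_Ioi.1 hy]), sub_zero, one_mul]
        rw [lap0_congr e2, lap0_lin A hx0, abs_zero]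
        positivity
    rw [(lapT_congr EventuallyEq.rfl e).eq_of_nhds, lap_sub g1 sX so zero_B1, Pi.sub_apply,
      sub_sub_cancel_left, abs_neg]
    have q3 : 0 ≤ ‖A‖ * T.wt γ L v x := by positivity
    nlinarith [key o _ so qo, mul_nonneg p2 q3]
  · have qo : QC 2 (8 * C1 * Mo) (clX T L (cv T L om v A R) (Sum.inr v) x) := fun i => by
      refine (((h1 x R hx0 hR0 a2).mul isOpen_ball (hq x a1 a2 i)).mono
        (le_of_eq (by ring))).congr isOpen_ball fun y hy => ?_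
      rw [clX_cv, ps_zero four_pos (by linarith [(Cu.norm_cell hx0 hy).1]), sub_zero, one_mul]
      rfl
    have m0 : 0 ≤ Mo := (hq x a1 a2 j).nonneg zero_B1
    have q1 := key _ _ (clX_sm (sV.sm _) fun y hy => b1 y (B1_sub hy)) qo
    have q2 : C2 * (K * T.wt γ L v x * (8 * C1 * Mo)) ≤ C2 * (K * 2 * (8 * C1 * Mo)) := by gcongr
    nlinarith [lap0_le (qo j), mul_nonneg p1 m0]
  · have e : clX T L (cv T L om v A R) (Sum.inr v) x =ᶠ[𝓝 0] 0 := by
      filter_upwards [ev_cell x isOpen_Ioi a] with y hy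
      funext I
      rw [clX_cv, ps_zero hR0 (le_of_lt hy), zero_mul]
      rfl
    rw [(lapT_congr EventuallyEq.rfl e).eq_of_nhds, lap_zero]
    rfl

end Crest.Agent.N207.M

end
end

-- ▼ part N207/M/H4a
section

/-!
# Row 207, X3 (helper10): the flat Hardy inequality with constant `4` and a small collar error
-/

set_option autoImplicit false
open MeasureTheory Set Filter Topology Metric
open scoped ContDiff
open Crest.GeometryTopology.CoordMetric
open Crest.Agent.N207.Hd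

noncomputable section

namespace Crest.Agent.N207.M

theorem h4_collars {f : E4 → ℝ} {a c : ℝ} {K : ℕ} (hc : 0 < c) (hac : a ≤ c)
    (hi : IntegrableOn f (An a (4 ^ K * c))) (h0 : ∀ x ∈ An a (4 ^ K * c), 0 ≤ f x) :
    ∑ j ∈ Finset.range K, ∫ x in An (4 ^ j * c) (2 * (4 ^ j * c)), f x ≤
      ∫ x in An a (4 ^ K * c), f x := by
  have p1 : ∀ j : ℕ, c ≤ 4 ^ j * c := fun j =>
    le_mul_of_one_le_left hc.le (one_le_pow₀ (by norm_num))
  have p2 : ∀ i j : ℕ, i < j → 2 * (4 ^ i * c) < 4 ^ j * c := fun i j hij => by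
    have : (4 : ℝ) ^ (i + 1) ≤ 4 ^ j := pow_le_pow_right₀ (by norm_num) hij
    rw [pow_succ] at this
    have : (0 : ℝ) < 4 ^ i := by positivity
    nlinarith
  have sub : ∀ j ∈ Finset.range K, An (4 ^ j * c) (2 * (4 ^ j * c)) ⊆ An a (4 ^ K * c) :=
    fun j hj => An_mono (hac.trans (p1 j)) (p2 j K (Finset.mem_range.1 hj)).le
  rw [← integral_biUnion_finset _ (fun j _ => measurableSet_An _ _) ?_
    fun j hj => hi.mono_set (sub j hj)]
  · exact setIntegral_mono_set hi ((ae_restrict_mem (measurableSet_An _ _)).mono h0)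
      (iUnion₂_subset sub).eventuallyLE
  · intro i _ j _ hij
    refine disjoint_left.2 fun x hx hy => ?_
    rcases lt_or_gt_of_ne hij with k | k
    · linarith [p2 i j k, hx.2, hy.1]
    · linarith [p2 j i k, hx.1, hy.2]

theorem h4_flat : ∃ C : ℝ, 0 ≤ C ∧ ∀ (K : ℕ) (U : Set E4) (u : E4 → ℝ) (a c : ℝ), 0 < K →
    IsOpen U → ContDiffOn ℝ 1 u U → 0 < a → 2 * a ≤ c → An a (4 ^ K * c) ⊆ U →
    (∀ r ∈ Icc a (4 ^ K * c), M0 u r) →
    4 * ∫ x in An (2 * a) c, u x ^ 2 / ‖x‖ ^ 2 ≤ (∫ x in An a (4 ^ K * c), g2 u x) +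
      C / K * ∫ x in An a (4 ^ K * c), u x ^ 2 / ‖x‖ ^ 2 := by
  obtain ⟨C, hC, H⟩ := hardy_M0 (κ := 2) one_lt_two
  refine ⟨C, hC, fun K U u a c hK hU hu ha hac hs h0 => ?_⟩
  have hc : 0 < c := by linarith
  have cP : ContinuousOn (fun x => u x ^ 2 / ‖x‖ ^ 2) (An a (4 ^ K * c)) :=
    ((hu.continuousOn.mono hs).pow 2).div (continuous_norm.pow 2).continuousOn
      fun x hx => (pow_pos (pos_of_An ha hx) 2).ne'
  have iP := cP.integrableOn_compact (μ := volume) (isCompact_An _ _)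
  have iQ := ((contOn_g2 hU hu).mono hs).integrableOn_compact (μ := volume) (isCompact_An _ _)
  have nP : ∀ x : E4, 0 ≤ u x ^ 2 / ‖x‖ ^ 2 := fun x => by positivity
  have key : ∀ j ∈ Finset.range K, 4 * ∫ x in An (2 * a) c, u x ^ 2 / ‖x‖ ^ 2 ≤
      (∫ x in An a (4 ^ K * c), g2 u x) +
        C * ∫ x in An (4 ^ j * c) (2 * (4 ^ j * c)), u x ^ 2 / ‖x‖ ^ 2 := fun j hj => by
    have p1 : c ≤ 4 ^ j * c := le_mul_of_one_le_left hc.le (one_le_pow₀ (by norm_num))
    have p2 : 2 * (4 ^ j * c) ≤ 4 ^ K * c := by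
      have : (4 : ℝ) ^ (j + 1) ≤ 4 ^ K := pow_le_pow_right₀ (by norm_num) (Finset.mem_range.1 hj)
      rw [pow_succ] at this
      have : (0 : ℝ) < 4 ^ j := by positivity
      nlinarith
    have s1 : An a (2 * (4 ^ j * c)) ⊆ An a (4 ^ K * c) := An_mono le_rfl p2
    have k := H U u a (2 * (4 ^ j * c)) 0 hU hu ha (by linarith) (s1.trans hs)
      fun r hr => h0 r ⟨hr.1, hr.2.trans p2⟩
    simp only [add_zero, one_pow, one_mul, zero_sub, Real.rpow_neg_one, Real.rpow_zero, abs_one,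
      mul_one, Left.neg_nonpos_iff, zero_le_one, if_true, ← div_eq_inv_mul,
      mul_div_cancel_left₀ _ (two_ne_zero (α := ℝ))] at k
    have m : ∀ a' c', An (2 * a) c ⊆ An a' c' → An a' c' ⊆ An a (4 ^ K * c) →
        ∫ x in An (2 * a) c, u x ^ 2 / ‖x‖ ^ 2 ≤ ∫ x in An a' c', u x ^ 2 / ‖x‖ ^ 2 :=
      fun a' c' e1 e2 => setIntegral_mono_set (iP.mono_set e2) (Eventually.of_forall nP)
        e1.eventuallyLE
    have m1 := m (2 * a) (4 ^ j * c) (An_mono le_rfl p1) (An_mono (by linarith) (by linarith))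
    have m2 := m a (2 * (4 ^ j * c)) (An_mono (by linarith) (by linarith)) s1
    have m3 := setIntegral_mono_set iQ (Eventually.of_forall (g2_nonneg u)) s1.eventuallyLE
    linarith
  have s := Finset.sum_le_sum key
  rw [Finset.sum_add_distrib, ← Finset.mul_sum, ← Finset.mul_sum, Finset.sum_const,
    Finset.sum_const, Finset.card_range, nsmul_eq_mul, nsmul_eq_mul] at s
  have s2 := mul_le_mul_of_nonneg_left (h4_collars hc (by linarith) iP fun x _ => nP x) hC
  have hK' : (0 : ℝ) < K := by exact_mod_cast hK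
  refine le_of_mul_le_mul_left ?_ hK'
  rw [mul_add, ← mul_assoc (K : ℝ) (C / K), mul_div_cancel₀ _ hK'.ne']
  linarith

/-- `∑ⱼ oⱼ² / |x|²` -/
def h4P (o : Tn 4 1) (x : E4) : ℝ := (∑ j, o x ![j] ^ 2) / ‖x‖ ^ 2

/-- `∑ⱼ |D oⱼ|²` -/
def h4Q (o : Tn 4 1) (x : E4) : ℝ := ∑ j, g2 (fun y => o y ![j]) x

/-- one neck -/
theorem h4_neck : ∃ C : ℝ, 0 ≤ C ∧ ∀ (K : ℕ) (U : Set E4) (o : Tn 4 1) (a c κ τ : ℝ)
    (f e w : E4 → ℝ), 0 < K → IsOpen U → SmT o U → 0 < a → 2 * a ≤ c → An a (4 ^ K * c) ⊆ U →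
    (∀ r ∈ Icc a (4 ^ K * c), ∀ j, M0 (fun y => o y ![j]) r) → 0 ≤ κ → 0 ≤ τ → C / K ≤ τ →
    IntegrableOn e U → IntegrableOn w U → (∀ x ∈ U, 0 ≤ f x ∧ 0 ≤ e x ∧ 0 ≤ w x) →
    (∀ x ∈ U, x ∉ An (2 * a) c → f x = 0) →
    (∀ x ∈ An a (4 ^ K * c), κ * h4Q o x ≤ (1 + τ) * e x + τ * (κ * h4P o x) ∧
      κ * h4P o x ≤ (1 + τ) * w x ∧ f x ≤ (1 + τ) ^ 3 * (κ * h4P o x)) →
    4 * ∫ x in U, f x ≤ (1 + τ) ^ 4 * ((∫ x in U, e x) + 2 * τ * ∫ x in U, w x) := by
  obtain ⟨C, hC, H⟩ := h4_flat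
  refine ⟨C, hC, fun K U o a c κ τ f e w hK hU ho ha hac hs h0 hκ hτ hCK ie iw hn hz hp => ?_⟩
  have hc : 0 < c := by linarith
  set B := An a (4 ^ K * c) with hB
  have mB : MeasurableSet B := measurableSet_An _ _
  have s1 : An (2 * a) c ⊆ B :=
    An_mono (by linarith) (le_mul_of_one_le_left hc.le (one_le_pow₀ (by norm_num)))
  have ho1 : ∀ j, ContDiffOn ℝ 1 (fun y => o y ![j]) U := fun j => (ho _).of_le (by simp)
  have iP : ∀ j, IntegrableOn (fun x => o x ![j] ^ 2 / ‖x‖ ^ 2) B := fun j =>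
    ((((ho1 j).continuousOn.mono hs).pow 2).div (continuous_norm.pow 2).continuousOn
      fun x hx => (pow_pos (pos_of_An ha hx) 2).ne').integrableOn_compact (isCompact_An _ _)
  have iQ : ∀ j, IntegrableOn (g2 fun y => o y ![j]) B := fun j =>
    ((contOn_g2 hU (ho1 j)).mono hs).integrableOn_compact (isCompact_An _ _)
  have eP : h4P o = fun x => ∑ j, o x ![j] ^ 2 / ‖x‖ ^ 2 := funext fun x => Finset.sum_div _ _ _
  have jP : IntegrableOn (h4P o) B := eP ▸ integrable_finsetSum _ fun j _ => iP j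
  have jQ : IntegrableOn (h4Q o) B := integrable_finsetSum _ fun j _ => iQ j
  have nP : ∀ x, 0 ≤ h4P o x := fun x => by rw [eP]; positivity
  have k0 : 4 * ∫ x in An (2 * a) c, h4P o x ≤ (∫ x in B, h4Q o x) + C / K * ∫ x in B, h4P o x := by
    simp only [eP, h4Q]
    rw [integral_finsetSum _ fun j _ => iP j, integral_finsetSum _ fun j _ => iQ j,
      integral_finsetSum _ fun j _ => (iP j).mono_set s1, Finset.mul_sum, Finset.mul_sum,
      ← Finset.sum_add_distrib]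
    exact Finset.sum_le_sum fun j _ => H K U _ a c hK hU (ho1 j) ha hac hs fun r hr => h0 r hr j
  have k1 : ∫ x in U, f x ≤ (1 + τ) ^ 3 * (κ * ∫ x in An (2 * a) c, h4P o x) := by
    rw [setIntegral_eq_of_subset_of_forall_sdiff_eq_zero hU.measurableSet (s1.trans hs)
      fun x hx => hz x hx.1 hx.2, ← integral_const_mul, ← integral_const_mul]
    refine integral_mono_of_nonneg ?_ (((jP.mono_set s1).const_mul _).const_mul _) ?_
    · filter_upwards [ae_restrict_mem (measurableSet_An _ _)] with x hx using (hn x (hs (s1 hx))).1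
    · filter_upwards [ae_restrict_mem (measurableSet_An _ _)] with x hx using (hp x (s1 hx)).2.2
  have k2 : κ * ∫ x in B, h4Q o x ≤ (1 + τ) * (∫ x in B, e x) + τ * (κ * ∫ x in B, h4P o x) := by
    have i1 := (ie.mono_set hs).const_mul (1 + τ)
    have i2 := (jP.const_mul κ).const_mul τ
    rw [← integral_const_mul, ← integral_const_mul, ← integral_const_mul, ← integral_const_mul,
      ← integral_add i1 i2]
    exact setIntegral_mono_on (jQ.const_mul κ) (i1.add i2) mB fun x hx => (hp x hx).1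
  have k3 : κ * ∫ x in B, h4P o x ≤ (1 + τ) * ∫ x in B, w x := by
    rw [← integral_const_mul, ← integral_const_mul]
    exact setIntegral_mono_on (jP.const_mul κ) ((iw.mono_set hs).const_mul _) mB
      fun x hx => (hp x hx).2.1
  have k4 : ∫ x in B, e x ≤ ∫ x in U, e x := setIntegral_mono_set ie
    ((ae_restrict_mem hU.measurableSet).mono fun x hx => (hn x hx).2.1) hs.eventuallyLE
  have k5 : ∫ x in B, w x ≤ ∫ x in U, w x := setIntegral_mono_set iw
    ((ae_restrict_mem hU.measurableSet).mono fun x hx => (hn x hx).2.2) hs.eventuallyLE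
  have k6 : 0 ≤ κ * ∫ x in B, h4P o x := mul_nonneg hκ (integral_nonneg nP)
  have k7 := mul_le_mul_of_nonneg_left k0 hκ
  have k8 := mul_le_mul_of_nonneg_right hCK k6
  have k9 := mul_le_mul_of_nonneg_left k3 hτ
  have hτ1 : 0 ≤ 1 + τ := by linarith
  have k10 := mul_le_mul_of_nonneg_left k4 hτ1
  have k11 := mul_le_mul_of_nonneg_left k5 (mul_nonneg hτ hτ1)
  have k12 : 4 * (κ * ∫ x in An (2 * a) c, h4P o x) ≤
      (1 + τ) * ((∫ x in U, e x) + 2 * τ * ∫ x in U, w x) := by nlinarith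
  have k13 := mul_le_mul_of_nonneg_left k12 (pow_nonneg hτ1 3)
  rw [pow_succ _ 3]
  linarith

end Crest.Agent.N207.M

end
end

-- ▼ part N207/M/H4

/-!
# Row 207, X3 (helper10): the leaf `H4`
-/

set_option autoImplicit false

open scoped ContDiff
open Metric Set Filter Topology MeasureTheory
open Crest.GeometryTopology.CoordMetric
open Crest.Agent.N207.I Crest.Agent.N207.CB Crest.Agent.N207.N Crest.Agent.N207.Ga
  Crest.Agent.N207.Hd

noncomputable section

namespace Crest.Agent.N207.M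

theorem h4_tau {σ c : ℝ} (hσ : |σ| < 2) :
    ∃ τ : ℝ, 0 < τ ∧ σ ^ 2 / 4 * ((1 + τ) ^ 4 * (1 + 2 * τ * c⁻¹)) < 1 := by
  have h1 : ContinuousAt (fun τ : ℝ => σ ^ 2 / 4 * ((1 + τ) ^ 4 * (1 + 2 * τ * c⁻¹))) 0 := by
    fun_prop
  have h2 : σ ^ 2 < 2 ^ 2 := sq_lt_sq' (abs_lt.1 hσ).1 (abs_lt.1 hσ).2
  have h3 := h1.eventually (gt_mem_nhds (a := 1) (by simp only; linarith))
  obtain ⟨τ, a, b⟩ := ((h3.filter_mono (nhdsWithin_le_nhds (s := Ioi 0))).and
    self_mem_nhdsWithin).exists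
  exact ⟨τ, b, a⟩

theorem h4_A {γ ε : ℝ} (hγ : 0 < γ) (hε : 0 < ε) (B q A0 : ℝ) :
    ∃ A : ℝ, A0 ≤ A ∧ B * ((A / 2) ^ (-γ) + (q / A) ^ γ) ≤ ε := by
  have h1 : Tendsto (fun A : ℝ => (A / 2) ^ (-γ)) atTop (𝓝 0) :=
    (tendsto_rpow_neg_atTop hγ).comp (tendsto_id.atTop_div_const two_pos)
  have h2 : Tendsto (fun A : ℝ => (q / A) ^ γ) atTop (𝓝 0) := by
    have := (tendsto_id.const_div_atTop q).rpow_const (p := γ) (Or.inr hγ.le)
    rwa [Real.zero_rpow hγ.ne'] at this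
  have h3 := (h1.add h2).const_mul B
  rw [add_zero, mul_zero] at h3
  exact ((eventually_ge_atTop A0).and (h3.eventually (ge_mem_nhds hε))).exists

theorem h4_zero {l : E4 → ℝ} {x : E4} (h : g2 l x = 0) (G : MetricField 4) :
    nsq G (dT l) x = 0 := by
  have : dT l x = 0 := funext fun I => pow_eq_zero_iff two_ne_zero |>.1
    ((Finset.sum_eq_zero_iff_of_nonneg fun _ _ => sq_nonneg _).1 h (I 0) (Finset.mem_univ _))
  simp [nsq, ip, this, ipA]

variable {M : Type*} {T : TD M}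

/-- smallness of the metric coefficients where the weight is small -/
theorem Cls.h4_small {γ Λ ε : ℝ} {C : ℕ → ℝ} {L : T.V → ℝ} {H : Fam T} (hH : Cls T γ C Λ L H)
    {w : T.V} {x : E4} (hx : x ∈ (T.glob L).U (Sum.inr w))
    (hw : (|C 0| + |C 1|) * T.wt γ L w x ≤ ε) :
    (∀ a b, |TD.dv (H (Sum.inr w)) a b x| ≤ ε) ∧
      ∀ a b c, ‖x‖ * |pderiv c (fun y => H (Sum.inr w) y a b) x| ≤ ε := by
  have hp : 0 < ‖x‖ := zero_lt_one.trans hx.1
  have w0 : 0 ≤ T.wt γ L w x := add_nonneg (by positivity) (by split_ifs <;> positivity)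
  have a0 := mul_le_mul_of_nonneg_right (le_abs_self (C 0)) w0
  have a1 := mul_le_mul_of_nonneg_right (le_abs_self (C 1)) w0
  have b0 := mul_nonneg (abs_nonneg (C 0)) w0
  have b1 := mul_nonneg (abs_nonneg (C 1)) w0
  refine ⟨fun a b => ?_, fun a b c => ?_⟩
  · have := hH.neck w 0 a b x hx
    rw [norm_iteratedFDeriv_zero, pow_zero, inv_one, mul_one, Real.norm_eq_abs] at this
    linarith
  · have k := hH.neck w 1 a b x hx
    rw [norm_iteratedFDeriv_one, pow_one] at k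
    have e : |pderiv c (fun y => H (Sum.inr w) y a b) x| ≤
        ‖fderiv ℝ (TD.dv (H (Sum.inr w)) a b) x‖ := by
      have : fderiv ℝ (TD.dv (H (Sum.inr w)) a b) x = fderiv ℝ (fun y => H (Sum.inr w) y a b) x :=
        fderiv_sub_const _
      rw [this]
      simpa [pderiv] using (fderiv ℝ (fun y => H (Sum.inr w) y a b) x).le_opNorm
        (EuclideanSpace.single c 1)
    have := mul_le_mul_of_nonneg_left (e.trans k) hp.le
    rw [show ‖x‖ * (C 1 * ‖x‖⁻¹ * T.wt γ L w x) = C 1 * T.wt γ L w x by field_simp] at this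
    linarith

/-- **H4** -/
theorem h4 (h : T.Ok) (pw : PW) (hg : HG T) : H4 T := by
  intro γ C Λ σ hγ hΛ hσ
  have hr := h.r_pos
  obtain ⟨c, hc, hg⟩ := hg γ C Λ hΛ
  obtain ⟨CH, hCH, HN⟩ := h4_neck
  obtain ⟨τ, hτ, hθ⟩ := h4_tau (c := c) hσ
  obtain ⟨ε, hε, pw⟩ := pw τ hτ
  obtain ⟨K, hK⟩ := exists_nat_gt (CH / τ)
  have hK0 : (0 : ℝ) < K := (div_nonneg hCH hτ.le).trans_lt hK
  have hK1 : CH / K ≤ τ := by
    rw [div_lt_iff₀ hτ] at hK
    rw [div_le_iff₀ hK0]; linarith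
  obtain ⟨A, hA, hAε⟩ := h4_A hγ hε (|C 0| + |C 1|) (4 ^ K) (max 6 (4 * 4 ^ K / T.r))
  have hA6 : 6 ≤ A := (le_max_left _ _).trans hA
  have hAr : 4 * 4 ^ K ≤ A * T.r := (div_le_iff₀ hr).1 ((le_max_right _ _).trans hA)
  have q1 : (1 : ℝ) ≤ 4 ^ K := one_le_pow₀ (by norm_num)
  obtain ⟨D, l0, hD, HS⟩ := exists_scf h (A := A) (by rw [div_le_iff₀ hr]; linarith) hτ
  refine ⟨_, A, τ, D, max l0 (Real.log (A * A)), hθ, hD, fun L hL => ?_⟩
  obtain ⟨l, hl⟩ := HS L ⟨hL.1, fun w hw => (le_max_left _ _).trans (hL.2 w hw)⟩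
  refine ⟨l, hl, fun H hH U hU => ?_⟩
  obtain ⟨hU, R, hR⟩ := hU
  obtain ⟨S, hS, hV⟩ := exists_cs h hL.1 hU.compat hR
  have hO := h.glob_ok hL.1
  have hχ := h.glob_pou hL.1
  have hb := hH.met
  obtain ⟨S', s1, s2, s3⟩ := hS.exists_cl hO
  have n1 : ∀ s, ∀ x ∈ (T.glob L).U s, 0 ≤ nsq (rt T L H s) (U s) x / Sk.rw T L s x ^ 2 :=
    fun s x hx => div_nonneg (nsq_nonneg (hb.riem s) hx _) (sq_nonneg _)
  have n2 : ∀ s, ∀ x ∈ (T.glob L).U s, 0 ≤ nsq (rt T L H s) (cov (rt T L H s) (U s)) x :=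
    fun s x hx => nsq_nonneg (hb.riem s) hx _
  have i1 : (T.glob L).Intg T.χ (rt T L H)
      fun s x => nsq (rt T L H s) (U s) x / Sk.rw T L s x ^ 2 :=
    Atl.intg_of_cs hO hb hχ hS (fun s => (hU.ct_ip hb hU s).div ((cont_rw s).pow 2).continuousOn
      fun x hx => (pow_pos (Hd.rw_pos s hx) 2).ne')
      ((hV.ip_left (G := rt T L H) U).of_imp fun s y _ e => by
        rw [show nsq (rt T L H s) (U s) y = 0 from e, zero_div])
  have i2 : (T.glob L).Intg T.χ (rt T L H) fun s => nsq (rt T L H s) (cov (rt T L H s) (U s)) :=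
    Atl.intg_of_cs hO hb hχ s2 ((hU.cov hO hb).ct_ip hb (hU.cov hO hb))
      (((hV.mono s1).cov hO s3).ip_left _)
  have dn := fun s x => Atl.den_nonneg (G := rt T L H) hχ s x
  have key : ∀ s, 4 * ∫ x in (T.glob L).U s, (T.glob L).den T.χ (rt T L H) s x *
      (nsq (rt T L H s) (dT (l s)) x * nsq (rt T L H s) (U s) x) ≤ (1 + τ) ^ 4 *
      ((∫ x in (T.glob L).U s, (T.glob L).den T.χ (rt T L H) s x *
        nsq (rt T L H s) (cov (rt T L H s) (U s)) x) + 2 * τ *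
      ∫ x in (T.glob L).U s, (T.glob L).den T.χ (rt T L H) s x *
        (nsq (rt T L H s) (U s) x / Sk.rw T L s x ^ 2)) := by
    rintro (a | w)
    · simp only [h4_zero (hl.ball a _), zero_mul, mul_zero, integral_zero]
      have m := (hO.isOpen (Sum.inl a)).measurableSet
      exact mul_nonneg (by positivity) (add_nonneg
        (setIntegral_nonneg m fun x hx => mul_nonneg (dn _ x) (n2 _ x hx)) (mul_nonneg (by positivity)
          (setIntegral_nonneg m fun x hx => mul_nonneg (dn _ x) (n1 _ x hx))))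
    obtain ⟨c0, c1, c2, c3⟩ : ∃ c0 : ℝ, A ≤ c0 ∧ (w ≠ T.root → A * c0 = Real.exp (L w)) ∧
        (w = T.root → R ≤ c0) := by
      by_cases hw : w = T.root
      · exact ⟨max A R, le_max_left _ _, fun k => absurd hw k, fun _ => le_max_right _ _⟩
      · refine ⟨Real.exp (L w) / A, ?_, fun _ => mul_div_cancel₀ _ (by linarith),
          fun k => absurd k hw⟩
        rw [le_div_iff₀ (by linarith), ← Real.log_le_iff_le_exp (by positivity)]
        exact (le_max_right _ _).trans (hL.2 w hw)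
    have mid : ∀ x : E4, ‖x‖ ≤ 4 ^ K * c0 → w ≠ T.root → ‖x‖ ≤ T.r / 4 * Real.exp (L w) :=
      fun x hx hw => by rw [← c2 hw]; nlinarith
    have ex := mul_pos hr (Real.exp_pos (L w))
    have sub : ∀ x : E4, A / 2 ≤ ‖x‖ → ‖x‖ ≤ 4 ^ K * c0 → x ∈ (T.glob L).U (Sum.inr w) :=
      fun x h1 h2 => ⟨by linarith, fun hw => by linarith [mid x h2 hw]⟩
    obtain ⟨g, hg1, hg2⟩ := exists_free (h.ne_bot w) (h.free w)
    refine HN K _ (U (Sum.inr w)) (A / 2) c0 (Nat.card ((T.glob L).Γ (Sum.inr w)) : ℝ)⁻¹ τ _ _ _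
      (by exact_mod_cast hK0) (hO.isOpen _) (hU.sm _) (by linarith) (by linarith)
      (fun x hx => sub x hx.1 hx.2) (fun r hr' j => M0_of_sec hO hU hg1 hg2 (by linarith [hr'.1])
        (fun x hx => sub x (hx ▸ hr'.1) (hx ▸ hr'.2)) _) (by positivity) hτ.le hK1 (i2 _) (i1 _)
      (fun x hx => ⟨mul_nonneg (dn _ x) (mul_nonneg (nsq_nonneg (hb.riem _) hx _)
        (nsq_nonneg (hb.riem _) hx _)), mul_nonneg (dn _ x) (n2 _ x hx),
        mul_nonneg (dn _ x) (n1 _ x hx)⟩) (fun x hx hn => ?_) fun x hx => ?_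
    · by_cases h0 : g2 (l (Sum.inr w)) x = 0
      · rw [h4_zero h0, zero_mul, mul_zero]
      obtain ⟨o1, o2⟩ := hl.out w x hx h0
      have o3 : c0 < ‖x‖ := not_le.1 fun k => hn ⟨by linarith, k⟩
      by_cases hw : w = T.root
      · subst hw
        simp [nsq, ip, hR x ((c3 rfl).trans o3.le), ipA]
      · have := o2 hw
        rw [← c2 hw] at this
        nlinarith
    · have hx' := sub x hx.1 hx.2
      have hp : 0 < ‖x‖ := by linarith [hx.1]
      have hwt : T.wt γ L w x ≤ (A / 2) ^ (-γ) + (4 ^ K / A) ^ γ := by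
        refine add_le_add (Real.rpow_le_rpow_of_nonpos (by linarith) hx.1 (by linarith)) ?_
        split_ifs with hw
        · positivity
        · refine Real.rpow_le_rpow (by positivity) ?_ hγ.le
          rw [Real.exp_neg, ← c2 hw, inv_mul_le_iff₀ (by nlinarith)]
          refine hx.2.trans_eq ?_
          field_simp
      obtain ⟨m0, m1⟩ := hH.h4_small hx'
        ((mul_le_mul_of_nonneg_left hwt (by positivity)).trans hAε)
      have e2 := eps2_ne L w
      have pd : (H (Sum.inr w) x).PosDef := by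
        have := ((hb.riem (Sum.inr w)).posDef x hx').smul
          (inv_pos.2 (pow_pos (TD.eps_pos L w) 2))
        rwa [rt_eq, smul_smul, show T.un (Sum.inr w) = w from rfl, inv_mul_cancel₀ e2,
          one_smul] at this
      obtain ⟨p1, p2, p3⟩ := pw _ (U (Sum.inr w)) (l (Sum.inr w)) x _ hp pd m0 m1
      have p4 := hl.neck w x hx'
      have e1 := (TD.eps_pos L w).ne'
      set κ := (Nat.card ((T.glob L).Γ (Sum.inr w)) : ℝ)⁻¹ with hκ
      have hκ0 : 0 ≤ κ := by positivity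
      set G := H (Sum.inr w) with hG
      have r0 : rt T L H (Sum.inr w) = fun y => T.eps L w ^ 2 • G y := rfl
      have d0 : (T.glob L).den T.χ (rt T L H) (Sum.inr w) x =
          κ * ((T.eps L w ^ 2) ^ 2 * √(G x).det) := by
        rw [Atl.den, h.glob_χ_mid hL.1 (by linarith [hx.1])
          (fun hw => by linarith [mid x hx.2 hw]), if_pos rfl, one_mul, r0, sqrt_det_smul]
      have r1 : Sk.rw T L (Sum.inr w) x = T.eps L w * ‖x‖ := rfl
      rw [d0, r0, r1, cov_smul_met e2, nsq_smul_met e2, nsq_smul_met e2, nsq_smul_met e2]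
      have P0 : 0 ≤ h4P (U (Sum.inr w)) x := by unfold h4P; positivity
      refine ⟨?_, ?_, ?_⟩
      · have := mul_le_mul_of_nonneg_left p1 hκ0
        refine this.trans_eq ?_
        unfold h4P
        rw [pow_add, pow_one]
        field_simp
      · have := mul_le_mul_of_nonneg_left (div_le_div_of_nonneg_right p2 (sq_nonneg ‖x‖)) hκ0
        refine this.trans_eq ?_
        field_simp
      · have p5 := mul_le_mul_of_nonneg_right p4 P0
        rw [show ‖x‖ ^ 2 * g2 (l (Sum.inr w)) x * h4P (U (Sum.inr w)) x =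
          g2 (l (Sum.inr w)) x * ∑ j, U (Sum.inr w) x ![j] ^ 2 by unfold h4P; field_simp] at p5
        have := mul_le_mul_of_nonneg_left (p3.trans (mul_le_mul_of_nonneg_left p5
          (by linarith))) hκ0
        refine le_of_eq_of_le ?_ (this.trans_eq (by ring))
        field_simp
  have s := Finset.sum_le_sum fun s (_ : s ∈ Finset.univ) => key s
  rw [← Finset.mul_sum, ← Finset.mul_sum, Finset.sum_add_distrib, ← Finset.mul_sum] at s
  have k := hg L H hL.1 hH U S hU hS hV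
  rw [← le_inv_mul_iff₀ hc] at k
  have k2 := s.trans (mul_le_mul_of_nonneg_left (add_le_add_right
    (mul_le_mul_of_nonneg_left k (by positivity : 0 ≤ 2 * τ)) _) (by positivity))
  have k3 := mul_le_mul_of_nonneg_left k2 (show 0 ≤ σ ^ 2 / 4 by positivity)
  refine le_of_eq_of_le ?_ (k3.trans_eq ?_)
  · unfold mu Atl.int; ring
  · unfold mu Atl.int; ring

end Crest.Agent.N207.M

end
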